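import Vale.Agent.P088.R2.H281.EP.Wb
import Vale.Agent.P088.R2.H455.E.Rows
import Vale.Agent.P088.R2.H31.EP.CstL
import Vale.Agent.P088.R2.H850.E.Ws

/-!
# P088, stage 3, EST': the margin of `a² + b²` in the unit chart

`Lbw`: the margin in rate units is at least `c R^(-C) min (E, √E)` near the diagonal, `E = e^u`.
It gives the fields `w1`, `w2` with `a = 1`, `b = 2`.
-/

open Set Filter MeasureTheory
open scoped ContDiff Topology Matrix

noncomputable section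

namespace Vale.Agent.P088.R2.H850.E

open Vale.Agent.P088.LR Vale.Agent.P088.HY Vale.Agent.P088.HY.T3 Vale.Agent.P088.HY.T4
open Vale.Agent.P088.R2.H269 (ky Zi)
open Vale.Agent.P088.R2.H31.EP
open Vale.Agent.P088.R2.H455.E
open Vale.Agent.P088.R2.H551.E (Q8)

variable {n : ℕ}

/-- The lower bound of the margin (rate units). -/
def Lbw (n : ℕ) (c C R : ℝ) (u w : VV n → ℝ) : Prop := ∀ x ∈ Zi n, ∀ y ∈ Zi n, ‖x - y‖ ≤ 1 / R →
  c * R ^ (-C) * min (Real.exp (u (R • (x, y)))) (Real.exp (u (R • (x, y)) / 2)) ≤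
    w (R • (x, y))

/-- The real inequalities behind `w1` and `w2`. -/
theorem real_w {R kap G c C δ u w : ℝ} (hR : 1 ≤ R) (hk : 1 ≤ kap) (hc : 0 ≤ c) (hδ : 0 < δ)
    (hδ1 : δ ≤ 1) (hu : δ * (kap * Real.exp (R * G) / R) ^ 2 ≤ Real.exp u)
    (hw : c * R ^ (-C) * min (Real.exp u) (Real.exp (u / 2)) ≤ w) :
    (R ≤ kap * Real.exp (R * G) →
      c * δ * R ^ (-(C + 2)) * kap ^ (1 : ℝ) * Real.exp (-(2 * R * |G|)) ≤ R ^ 4 * w) ∧
    c * δ * R ^ (-(C + 2)) * kap ^ (-2 : ℝ) * Real.exp (-(2 * R * |G|)) ≤ R ^ 4 * w := by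
  have hR0 : 0 < R := by linarith
  have hk0 : 0 < kap := by linarith
  set k := kap * Real.exp (R * G) with hkd
  have hkp : 0 < k := by positivity
  set t := k / R with ht
  have ht0 : 0 < t := by positivity
  have hRC : 0 < R ^ (-C) := Real.rpow_pos_of_pos hR0 _
  have he2 : Real.exp (u / 2) ^ 2 = Real.exp u := by
    rw [← Real.exp_nat_mul]
    congr 1
    push_cast
    ring
  have h1 : δ * t ≤ Real.exp (u / 2) := by
    have hp := Real.exp_pos (u / 2)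
    refine le_of_sq_le_sq ?_ hp.le
    rw [he2, mul_pow]
    refine le_trans ?_ hu
    have : δ ^ 2 ≤ δ := by nlinarith
    exact mul_le_mul_of_nonneg_right this (sq_nonneg _)
  have h2 : δ * min (t ^ 2) t ≤ min (Real.exp u) (Real.exp (u / 2)) := by
    refine le_min ?_ ?_
    · exact (mul_le_mul_of_nonneg_left (min_le_left _ _) hδ.le).trans hu
    · exact (mul_le_mul_of_nonneg_left (min_le_right _ _) hδ.le).trans h1
  have h3 : c * R ^ (-C) * (δ * min (t ^ 2) t) ≤ w :=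
    (mul_le_mul_of_nonneg_left h2 (by positivity)).trans hw
  have hm0 : 0 ≤ min (t ^ 2) t := le_min (sq_nonneg _) ht0.le
  have hw0 : 0 ≤ w := le_trans (by positivity) h3
  have hR4 : (1 : ℝ) ≤ R ^ 4 := one_le_pow₀ hR
  have h4 : c * R ^ (-C) * (δ * min (t ^ 2) t) ≤ R ^ 4 * w :=
    h3.trans (le_mul_of_one_le_left hw0 hR4)
  have hRp : R ^ (-(C + 2)) = R ^ (-C) * (R ^ 2)⁻¹ := by
    rw [show -(C + 2) = -C + (-2 : ℝ) by ring, Real.rpow_add hR0, Real.rpow_neg hR0.le 2]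
    norm_num
  have hGa : -|G| ≤ G := neg_abs_le G
  have hRG : 0 ≤ R * |G| := by positivity
  have hek : Real.exp (-(R * |G|)) ≤ Real.exp (R * G) :=
    Real.exp_le_exp.2 (by nlinarith)
  have hR2 : (1 : ℝ) ≤ R ^ 2 := one_le_pow₀ hR
  constructor
  · intro hRk
    have ht1 : 1 ≤ t := by rw [ht, le_div_iff₀ hR0]; linarith
    have hmin : min (t ^ 2) t = t := min_eq_right (by nlinarith)
    rw [hmin] at h4
    refine le_trans ?_ h4
    have e1 : kap * Real.exp (-(2 * R * |G|)) ≤ k := by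
      rw [hkd]
      refine mul_le_mul_of_nonneg_left (le_trans (Real.exp_le_exp.2 ?_) hek) hk0.le
      nlinarith
    have e2 : (R ^ 2)⁻¹ * (kap * Real.exp (-(2 * R * |G|))) ≤ t := by
      calc (R ^ 2)⁻¹ * (kap * Real.exp (-(2 * R * |G|))) ≤ (R ^ 2)⁻¹ * k :=
            mul_le_mul_of_nonneg_left e1 (by positivity)
        _ ≤ R⁻¹ * k := by
            refine mul_le_mul_of_nonneg_right ?_ hkp.le
            exact inv_anti₀ hR0 (by nlinarith)
        _ = t := by rw [ht]; field_simp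
    rw [hRp, Real.rpow_one]
    calc c * δ * (R ^ (-C) * (R ^ 2)⁻¹) * kap * Real.exp (-(2 * R * |G|))
        = c * R ^ (-C) * (δ * ((R ^ 2)⁻¹ * (kap * Real.exp (-(2 * R * |G|))))) := by ring
      _ ≤ c * R ^ (-C) * (δ * t) := by gcongr
  · refine le_trans ?_ h4
    have hk2 : kap ^ (-2 : ℝ) ≤ 1 := Real.rpow_le_one_of_one_le_of_nonpos hk (by norm_num)
    have hke : Real.exp (-(R * |G|)) ≤ k := by
      rw [hkd]
      calc Real.exp (-(R * |G|)) ≤ Real.exp (R * G) := hek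
        _ ≤ kap * Real.exp (R * G) := le_mul_of_one_le_left (Real.exp_pos _).le hk
    have hte : R⁻¹ * Real.exp (-(R * |G|)) ≤ t := by
      rw [ht, div_eq_inv_mul]
      exact mul_le_mul_of_nonneg_left hke (by positivity)
    have h5 : (R ^ 2)⁻¹ * Real.exp (-(2 * R * |G|)) ≤ min (t ^ 2) t := by
      have e0 : Real.exp (-(2 * R * |G|)) = Real.exp (-(R * |G|)) ^ 2 := by
        rw [← Real.exp_nat_mul]
        congr 1
        push_cast
        ring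
      refine le_min ?_ ?_
      · calc (R ^ 2)⁻¹ * Real.exp (-(2 * R * |G|)) = (R⁻¹ * Real.exp (-(R * |G|))) ^ 2 := by
              rw [e0]; ring
          _ ≤ t ^ 2 := by gcongr
      · refine le_trans ?_ hte
        refine mul_le_mul (inv_anti₀ hR0 (by nlinarith)) (Real.exp_le_exp.2 (by nlinarith))
          (Real.exp_pos _).le (by positivity)
    rw [hRp]
    calc c * δ * (R ^ (-C) * (R ^ 2)⁻¹) * kap ^ (-2 : ℝ) * Real.exp (-(2 * R * |G|))
        = c * R ^ (-C) * (δ * (((R ^ 2)⁻¹ * Real.exp (-(2 * R * |G|))) * kap ^ (-2 : ℝ))) := by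
          ring
      _ ≤ c * R ^ (-C) * (δ * (((R ^ 2)⁻¹ * Real.exp (-(2 * R * |G|))) * 1)) := by gcongr
      _ = c * R ^ (-C) * (δ * ((R ^ 2)⁻¹ * Real.exp (-(2 * R * |G|)))) := by ring
      _ ≤ c * R ^ (-C) * (δ * min (t ^ 2) t) := by gcongr

/-- `E` near the diagonal: `E ≥ δ (ky / R)²`. -/
theorem exp_u_ge (hn : 0 < n) {σ R kap Gs : ℝ} (h0 : 0 ≤ σ) (h1 : σ ≤ 1 / 10) (hR : 1 ≤ R)
    (hk : 1 ≤ kap) {x y : V n} (hx : x ∈ Zi n) (hy : y ∈ Zi n) (hxy : ‖x - y‖ ≤ 1 / R) {u : ℝ}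
    (hu : H281.EP.Lu n σ R kap Gs x + H281.EP.Lu n σ R kap Gs y - 1 ≤ u) :
    Real.exp (-(2 * n + 1)) * (kap * Real.exp (R * (gy n σ x - Gs)) / R) ^ 2 ≤ Real.exp u := by
  have hR0 : 0 < R := by linarith
  have hx4 : HY.sq x ≤ 4 := (H281.EP.sq_le_of hx.2).trans (by norm_num)
  have hy4 : HY.sq y ≤ 4 := (H281.EP.sq_le_of hy.2).trans (by norm_num)
  have hL := (abs_le.1 (H281.EP.Lu_lip hn (kap := kap) (Gs := Gs) hR0.le h0 h1 hx4 hy4)).2
  have hRxy : R * ‖x - y‖ ≤ 1 := by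
    rw [le_div_iff₀ hR0] at hxy
    linarith
  have h2 : R * (2 * n * ‖x - y‖) ≤ 2 * n := by
    have : R * (2 * n * ‖x - y‖) = 2 * n * (R * ‖x - y‖) := by ring
    rw [this]
    have hn' : (0 : ℝ) ≤ 2 * n := by positivity
    nlinarith
  have e1 : kap * Real.exp (R * (gy n σ x - Gs)) / R = Real.exp (H281.EP.Lu n σ R kap Gs x) := by
    unfold H281.EP.Lu
    rw [Real.exp_add, Real.exp_log (by positivity)]
    ring
  rw [e1, ← Real.exp_nat_mul, ← Real.exp_add]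
  refine Real.exp_le_exp.2 ?_
  push_cast
  linarith

/-- The correction is at most `1 / 8`. -/
theorem muc_le {q : Cst} {d : Pk n} (ok : PkOk q d) (s : ℝ) : |d.μc q s| ≤ 1 / 8 := by
  unfold Pk.μc
  have h0 := Real.smoothTransition.nonneg (2 * ((s - d.l₀ q) / q.R) - 1)
  have h1 := Real.smoothTransition.le_one (2 * ((s - d.l₀ q) / q.R) - 1)
  rw [abs_mul, abs_of_nonneg (by linarith :
    (0 : ℝ) ≤ 1 - Real.smoothTransition (2 * ((s - d.l₀ q) / q.R) - 1))]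
  exact (mul_le_of_le_one_right (abs_nonneg _) (by linarith)).trans (ok.ph.μb s)

/-- `u` in rate units, near the diagonal. -/
theorem u_ge {q : Cst} {d : Pk n} (ok : PkOk q d) (hR : 1 ≤ q.R) {x y : V n} (hx : x ∈ Zi n)
    (hy : y ∈ Zi n) :
    H281.EP.Lu n q.σ q.R d.kap d.Gs x + H281.EP.Lu n q.σ q.R d.kap d.Gs y - 1 ≤
      d.u q (q.R • (x, y)) := by
  have hR0 : 0 < q.R := by linarith
  have hl : ∀ x ∈ Zi n, d.l (q.R • x) = H281.EP.Lu n q.σ q.R d.kap d.Gs x := by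
    intro x hx
    have hs : HY.sq (q.R • x) ≤ (5 / 4 * q.R) ^ 2 := by
      have e : HY.sq (q.R • x) = q.R ^ 2 * HY.sq x := by
        simp only [HY.sq, Pi.smul_apply, smul_eq_mul, mul_pow, Finset.mul_sum]
      rw [e, mul_pow, mul_comm]
      exact mul_le_mul_of_nonneg_right ((H281.EP.sq_le_of hx.2).trans (by norm_num)) (sq_nonneg _)
    rw [ok.lev.eq _ hs]
    unfold lv H281.EP.Lu
    rw [smul_smul, inv_mul_cancel₀ hR0.ne', one_smul]
  have hμ := abs_le.1 (muc_le ok (d.l (H464.Cu.mid (q.R • (x, y)))))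
  have hχ := ok.χb (H31.EP.r2 (gi d.s₁) (q.R • (x, y)))
  have e : d.u q (q.R • (x, y)) = d.l (q.R • x) + d.l (q.R • y) +
      2 * (d.χ (H31.EP.r2 (gi d.s₁) (q.R • (x, y))) *
        d.μc q (d.l (H464.Cu.mid (q.R • (x, y))))) := rfl
  rw [e, hl x hx, hl y hy]
  nlinarith [hμ.1, hμ.2, hχ.1, hχ.2, mul_nonneg hχ.1 (by linarith [hμ.1] :
    (0 : ℝ) ≤ d.μc q (d.l (H464.Cu.mid (q.R • (x, y)))) + 1 / 8)]

/-- **`WtB` from `Lbw`.** -/
theorem wtB_of (hn : 0 < n) {q : Cst} {d : Pk n} (ok : PkOk q d) (hR : 1 ≤ q.R) (h0 : 0 ≤ q.σ)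
    (h1 : q.σ ≤ 1 / 10) (hCk : 4 ≤ q.Ck) {c C : ℝ} (hc : 0 ≤ c) {w : VV n → ℝ}
    (wc : Continuous w) (w0 : ∀ z, 0 < w z) (lb : Lbw n c C q.R (d.u q) w) :
    WtB q.σ (c * Real.exp (-(2 * n + 1))) (C + 2) q.R d.kap d.Gs
      (fun z => q.R ^ 4 * w (q.R • z)) := by
  have hR0 : 0 < q.R := by linarith
  have hδ1 : Real.exp (-(2 * n + 1 : ℝ)) ≤ 1 := by
    rw [Real.exp_le_one_iff]
    have : (0 : ℝ) ≤ n := Nat.cast_nonneg n
    linarith
  have key : ∀ x ∈ Zi n, ∀ y ∈ Zi n, ‖x - y‖ ≤ 1 / q.R → _ := fun x hx y hy hxy =>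
    real_w (G := gy n q.σ x - d.Gs) (C := C) hR ok.k1 hc (Real.exp_pos _) hδ1
      (exp_u_ge hn h0 h1 hR ok.k1 hx hy hxy (u_ge ok hR hx hy)) (lb x hx y hy hxy)
  refine ⟨continuous_const.mul (wc.comp (continuous_const_smul _)), fun z =>
    mul_pos (by positivity) (w0 _), fun x hx y hy hxy hk => ?_, fun x hx y hy hxy => ?_⟩
  · refine (key x hx y hy hxy).1 ?_
    have h2 : q.R ≤ d.kap ^ (1 / 4 : ℝ) := by
      have h3 : q.R ^ (4 : ℝ) ≤ d.kap :=
        (Real.rpow_le_rpow_of_exponent_le hR hCk).trans ok.kC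
      calc q.R = (q.R ^ (4 : ℝ)) ^ (1 / 4 : ℝ) := by
            rw [← Real.rpow_mul hR0.le]
            norm_num
        _ ≤ d.kap ^ (1 / 4 : ℝ) := Real.rpow_le_rpow (by positivity) h3 (by norm_num)
    exact h2.trans hk
  · exact (key x hx y hy hxy).2

/-- **`RowWb` from `Lbw`.** -/
theorem rowWb_of (hn : 0 < n) {wz : Cst → Pk n → VV n → ℝ} {c C : Cst → ℝ} (hc : NoR c)
    (hC : NoR C) (H : EvC fun q => 0 < c q ∧ 0 ≤ C q ∧ ∀ d : Pk n, PkOk q d →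
      Continuous (wz q d) ∧ (∀ z, 0 < wz q d z) ∧ Lbw n (c q) (C q) q.R (d.u q) (wz q d)) :
    RowWb n wz := by
  refine ⟨fun q => c q * Real.exp (-(2 * n + 1)), fun q => C q + 2, fun q R => ?_, fun q R => ?_,
    ?_⟩
  · simp only [hc q R]
  · simp only [hC q R]
  have e1 : EvC fun q => q.σ ≤ 1 / 10 :=
    EvC.at_σ (fun _ t => t ≤ 1 / 10) fun _ => sml_le (by norm_num)
  have e2 : EvC fun q => 4 ≤ q.Ck := EvC.at_Ck (fun _ t => 4 ≤ t) fun _ => eventually_ge_atTop 4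
  have e3 : EvC fun q => 1 ≤ q.R := EvC.at_R (fun _ t => 1 ≤ t) fun _ => eventually_ge_atTop 1
  have e4 : EvC fun q => 0 < q.σ := EvC.at_σ (fun _ t => 0 < t) fun _ => sml_pos
  refine (H.and (e1.and (e2.and (e3.and e4)))).mono ?_
  rintro q ⟨⟨h1, h2, h3⟩, h4, h5, h6, h7⟩
  refine ⟨by positivity, by linarith, fun d ok => ?_⟩
  obtain ⟨a1, a2, a3⟩ := h3 d ok
  exact wtB_of hn ok h6 h7.le h4 h5 h1.le a1 a2 a3

/-- **`RowWb` for the weight `ws`**, zone by zone. -/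
theorem rowWb_ws (hn : 0 < n) {ζ : Type*} (zos : Finset ζ) {ch : Cst → Pk n → ζ → VV n → ℝ}
    {Mz : Cst → Pk n → ζ → Q8 (VV n)} {c C : Cst → ℝ} (hc : NoR c) (hC : NoR C)
    (H : EvC fun q => 0 < c q ∧ 0 ≤ C q ∧ ∀ d : Pk n, PkOk q d →
      (∀ k ∈ zos, ((Mz q d k).sm fun z => ch q d k z ^ 2).Ct univ) ∧
      (∀ z, ∑ k ∈ zos, ch q d k z ^ 2 = 1) ∧
      (∀ z, ∀ k ∈ zos, ch q d k z ≠ 0 → 0 < lw (Mz q d k) z) ∧
      ∀ x ∈ Zi n, ∀ y ∈ Zi n, ‖x - y‖ ≤ 1 / q.R → ∀ k ∈ zos, ch q d k (q.R • (x, y)) ≠ 0 →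
        c q * q.R ^ (-(C q)) * min (Real.exp (d.u q (q.R • (x, y))))
          (Real.exp (d.u q (q.R • (x, y)) / 2)) ≤ lw (Mz q d k) (q.R • (x, y))) :
    RowWb n fun q d => ws zos (ch q d) (Mz q d) := by
  refine rowWb_of hn (c := fun q => c q / 4) (C := C) (fun q R => by simp only [hc q R]) hC ?_
  refine H.mono ?_
  rintro q ⟨h1, h2, h3⟩
  refine ⟨by positivity, h2, fun d ok => ?_⟩
  obtain ⟨a1, a2, a3, a4⟩ := h3 d ok
  refine ⟨continuousOn_univ.1 (ws_cont a1), fun z => ws_pos (a2 z) (a3 z), ?_⟩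
  intro x hx y hy hxy
  have := ws_ge (a2 (q.R • (x, y))) (a4 x hx y hy hxy)
  refine le_trans (le_of_eq ?_) this
  ring

end Vale.Agent.P088.R2.H850.E
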