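import Vale.Agent.P088.R2.H509.EP.Side
import Vale.Agent.P088.R2.H606.EP.Slp
import Vale.Agent.P088.R2.H850.E.W12

/-!
# P088, stage 3, EST': the pairs near the diagonal in the unit chart

`DgOk`: what is known at `R (x, y)`, `x, y ∈ Zi`, `|x - y| ≤ 1 / R`; `EvC.dg_dead`: only the leaves
near the diagonal, the tubes and `A1` are alive there.
-/

open Set Filter
open scoped ContDiff Topology

noncomputable section

namespace Vale.Agent.P088.R2.H850.E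

open Vale.Agent.P088.LR Vale.Agent.P088.HY Vale.Agent.P088.HY.T3 Vale.Agent.P088.HY.T4
open Vale.Agent.P088.R2.H269 (ky Zi Wt)
open Vale.Agent.P088.R2.H31.EP
open Vale.Agent.P088.R2.H455.E
open Vale.Agent.P088.R2.H867.EP

variable {n : ℕ} {q : Cst} {d : Pk n} {z : VV n}

/-- What is known near the diagonal (rate units). -/
structure DgOk (q : Cst) (d : Pk n) (z : VV n) : Prop where
  qn : qq z ≤ n
  lo : -(5 * q.R) ≤ d.u0 z
  up : d.u0 z ≤ 2 * d.l₀ q + 3 / 10 * q.R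
  ul : d.u0 z - 1 / 4 ≤ d.u q z
  uu : d.u q z ≤ d.u0 z + 1 / 4

/-- The levels in the unit chart. -/
theorem gy_dg (hn : 0 < n) {σ : ℝ} (h0 : 0 ≤ σ) (h1 : σ ≤ 1 / 100) {x : V n} (hx : x ∈ Zi n) :
    -(5 / 2) ≤ gy n σ x ∧ gy n σ x ≤ 3 / 20 := by
  have h2 : √(HY.sq x) ≤ 10 / 9 := hx.2
  have h3 := H281.EP.sq_le_of h2
  have h4 := H281.EP.cs x (e0 n)
  have h5 := H281.EP.cs (-x) (e0 n)
  have h6 : HY.sq (-x) = HY.sq x := by simp [HY.sq]
  rw [H281.EP.sq_e0 hn, Real.sqrt_one, mul_one] at h4 h5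
  rw [h6] at h5
  have h7 : ∑ i, (-x) i * e0 n i = -H281.EP.x0 x := by
    simp [H281.EP.x0, Finset.sum_neg_distrib]
  rw [h7] at h5
  have h8 : H281.EP.x0 x ≤ √(HY.sq x) := h4
  have h9 := H281.EP.sq_nn x
  rw [H281.EP.gy_eq hn]
  constructor
  · have : 0 ≤ σ / 2 * (HY.sq x - 2 * H281.EP.x0 x + 1) := by
      refine mul_nonneg (by linarith) ?_
      have := sq_nonneg (√(HY.sq x) - 1)
      have e := Real.sq_sqrt h9
      nlinarith
    linarith
  · have h10 : HY.sq x - 2 * H281.EP.x0 x + 1 ≤ 5 := by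
      norm_num at h3
      linarith
    have : σ / 2 * (HY.sq x - 2 * H281.EP.x0 x + 1) ≤ σ / 2 * 5 :=
      mul_le_mul_of_nonneg_left h10 (by linarith)
    linarith

/-- The level function in the unit chart. -/
theorem l_dg (ok : PkOk q d) (hR : 1 ≤ q.R) {x : V n} (hx : x ∈ Zi n) :
    d.l (q.R • x) = d.l₀ q + q.R * gy n q.σ x := by
  have hR0 : 0 < q.R := by linarith
  have hs : HY.sq (q.R • x) ≤ (5 / 4 * q.R) ^ 2 := by
    have e : HY.sq (q.R • x) = q.R ^ 2 * HY.sq x := by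
      simp only [HY.sq, Pi.smul_apply, smul_eq_mul, mul_pow, Finset.mul_sum]
    rw [e, mul_pow, mul_comm]
    exact mul_le_mul_of_nonneg_right ((H281.EP.sq_le_of hx.2).trans (by norm_num)) (sq_nonneg _)
  rw [ok.lev.eq _ hs]
  unfold lv Pk.l₀
  rw [smul_smul, inv_mul_cancel₀ hR0.ne', one_smul]
  ring

/-- **The facts near the diagonal.** -/
theorem EvC.dg (hn : 0 < n) : EvC fun q => ∀ d : Pk n, PkOk q d → ∀ x ∈ Zi n, ∀ y ∈ Zi n,
    ‖x - y‖ ≤ 1 / q.R → DgOk q d (q.R • (x, y)) := by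
  have e1 : EvC fun q => q.σ ≤ 1 / 100 :=
    EvC.at_σ (fun _ t => t ≤ 1 / 100) fun _ => sml_le (by norm_num)
  refine (e1.and EvC.pos).mono ?_
  rintro q ⟨h1, ⟨-, ⟨-, h2, -⟩, -, -, -, -, h3, h4⟩⟩ d ok x hx y hy hxy
  have hR0 : 0 < q.R := by linarith
  obtain ⟨a1, a2⟩ := gy_dg hn h2.le h1 hx
  obtain ⟨b1, b2⟩ := gy_dg hn h2.le h1 hy
  have l0 := H606.EP.l0_ge ok h3 h4
  have hu0 : d.u0 (q.R • (x, y)) = 2 * d.l₀ q + q.R * (gy n q.σ x + gy n q.σ y) := by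
    show d.l (q.R • x) + d.l (q.R • y) = _
    rw [l_dg ok h4 hx, l_dg ok h4 hy]
    ring
  have c1 : q.R * (gy n q.σ x + gy n q.σ y) ≤ q.R * (3 / 10) :=
    mul_le_mul_of_nonneg_left (by linarith) hR0.le
  have c2 : q.R * (-5) ≤ q.R * (gy n q.σ x + gy n q.σ y) :=
    mul_le_mul_of_nonneg_left (by linarith) hR0.le
  have hμ := abs_le.1 (muc_le ok (d.l (H464.Cu.mid (q.R • (x, y)))))
  have hχ := ok.χb (H31.EP.r2 (gi d.s₁) (q.R • (x, y)))
  have e : d.u q (q.R • (x, y)) = d.u0 (q.R • (x, y)) +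
      2 * (d.χ (H31.EP.r2 (gi d.s₁) (q.R • (x, y))) *
        d.μc q (d.l (H464.Cu.mid (q.R • (x, y))))) := rfl
  refine ⟨?_, by rw [hu0]; linarith, by rw [hu0]; linarith, ?_, ?_⟩
  · have e1 : qq (q.R • (x, y)) = q.R ^ 2 * HY.sq (x - y) := by
      show HY.sq (q.R • x - q.R • y) = _
      rw [← smul_sub]
      simp only [HY.sq, Pi.smul_apply, smul_eq_mul, mul_pow, Finset.mul_sum]
    rw [e1]
    have e2 := H281.EP.sq_le_norm (x - y)
    have e3 : ‖x - y‖ ^ 2 ≤ (1 / q.R) ^ 2 := pow_le_pow_left₀ (norm_nonneg _) hxy 2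
    have hn' : (0 : ℝ) ≤ n := Nat.cast_nonneg n
    calc q.R ^ 2 * HY.sq (x - y) ≤ q.R ^ 2 * (n * (1 / q.R) ^ 2) :=
          mul_le_mul_of_nonneg_left (e2.trans (mul_le_mul_of_nonneg_left e3 hn')) (sq_nonneg _)
      _ = n := by field_simp
  · rw [e]
    nlinarith [hμ.1, hμ.2, hχ.1, hχ.2, mul_nonneg hχ.1 (by linarith [hμ.1] :
      (0 : ℝ) ≤ d.μc q (d.l (H464.Cu.mid (q.R • (x, y)))) + 1 / 8)]
  · rw [e]
    nlinarith [hμ.1, hμ.2, hχ.1, hχ.2, mul_nonneg hχ.1 (by linarith [hμ.2] :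
      (0 : ℝ) ≤ 1 / 8 - d.μc q (d.l (H464.Cu.mid (q.R • (x, y)))))]

/-- The first radius of the passes is large. -/
theorem EvC.p1_big (A : ℝ) : EvC fun q => A < q.p₁ := by
  have h1 : EvC fun q => H509.Rad.Ok q.e₁ rp ∧ A < 4 / q.e₁ := by
    refine EvC.at_e₁ (fun _ t => H509.Rad.Ok t rp ∧ A < 4 / t) fun _ => ?_
    refine (ev_sml (a := 1 / 100) (by norm_num) fun _ h0 h1 => rad_ok h0 h1).and ?_
    refine ev_sml (a := 2 / (|A| + 1)) (by positivity) fun t h0 h1 => ?_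
    rw [lt_div_iff₀ h0]
    rw [le_div_iff₀ (by positivity)] at h1
    have := le_abs_self A
    nlinarith [abs_nonneg A]
  refine h1.mono fun q hq => ?_
  obtain ⟨h, h2⟩ := hq
  have h3 := h.num
  have h4 := h.one_le (t := 1 / 4) (by norm_num)
  have h5 := h.big h4 (h.L_le le_rfl h4 (h.gr_le (by norm_num)))
  show A < H509.Rad.pr q.e₁ rp (1 / 4)
  linarith

/-- The leaves which can be alive near the diagonal. -/
def DgZ (k : Zo) : Prop := Near k ∨ k = .T1 ∨ k = .T2 ∨ k = .A1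

/-- **The other leaves are dead.** -/
theorem EvC.dg_dead (n : ℕ) : EvC fun q => ∀ d : Pk n, PkOk q d → ∀ z, DgOk q d z →
    ∀ k, d.ch q k z ≠ 0 → DgZ k := by
  have e1 : EvC fun q => q.σ ≤ 1 / 100 :=
    EvC.at_σ (fun _ t => t ≤ 1 / 100) fun _ => sml_le (by norm_num)
  have e2 : EvC fun q => 0 < q.κ₁ → (n : ℝ) ≤ (q.κ₁ * q.R) ^ 2 / 4 ∧ 1 ≤ q.R := by
    refine EvC.at_R (fun q t => 0 < q.κ₁ → (n : ℝ) ≤ (q.κ₁ * t) ^ 2 / 4 ∧ 1 ≤ t) fun q => ?_
    by_cases h : 0 < q.κ₁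
    · filter_upwards [eventually_ge_atTop 1, eventually_ge_atTop ((4 * n + 1) / q.κ₁)] with t h1 h2 _
      rw [div_le_iff₀ h, mul_comm] at h2
      have hn : (0 : ℝ) ≤ n := Nat.cast_nonneg n
      exact ⟨by nlinarith, h1⟩
    · exact Eventually.of_forall fun _ h1 => absurd h1 h
  refine (((e1.and e2).and (EvC.pos.and (EvC.cpOk n))).and ((EvC.p1_big (2 * n + 1)).and
    (EvC.rq n))).mono ?_
  rintro q ⟨⟨⟨c1, c2⟩, ⟨⟨a1, a2, a3, a4, a5, a6, a7, a8, a9, a10⟩, ⟨b1, b2, b3, b4, b5, b6, b7⟩,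
    m1, m2, m3, m4, m5, m6⟩, cp⟩, p1, rq⟩ d ok z hz k hk
  have hR0 : 0 < q.R := by linarith
  obtain ⟨c2, -⟩ := c2 b1
  have hP := cp d ok
  have hn : (0 : ℝ) ≤ n := Nat.cast_nonneg n
  have hr2 : d.r2 z ≤ 2 * n := by
    have h1 := ((rq d ok).2 z).2.2
    have h2 := hz.qn
    show 2 * H464.Cu.rq (gi d.s₁) z ≤ 2 * n
    linarith
  have hl := H606.EP.l0_ge ok m5 m6
  have hN : 0 < d.N q z := ok.N_pos m1 _
  have hp : 2 * n < q.p₁ ^ 2 := by nlinarith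
  rcases zo_cases k with hi | hi | hi | hi
  · exfalso
    rcases sd_inf hk hi b1 b2 hR0 with h | h | h
    · linarith [hz.qn]
    · have h1 := hz.lo
      have h2 : 100 * q.R ≤ q.R / q.σ := by
        rw [le_div_iff₀ b2]
        nlinarith
      linarith
    · linarith [hz.up]
  · exfalso
    have h1 := (sd_RS hk hi (by linarith) hN).2
    have h2 := hz.uu
    have h3 := hz.up
    unfold Pk.uth at h1
    linarith
  · exact Or.inl hi
  · rcases hi with h | h | h | h | h | h | h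
    · exact Or.inr (Or.inl h)
    · exact Or.inr (Or.inr (Or.inl h))
    · exact Or.inr (Or.inr (Or.inr h))
    · have := sd_P hk (Or.inl h) hP
      linarith
    · have := sd_P hk (Or.inr (Or.inl h)) hP
      linarith
    · have := sd_P hk (Or.inr (Or.inr h)) hP
      linarith
    · subst h
      have := sd_Af hk hP
      nlinarith

/-- Near the diagonal `u` is on the first pass. -/
theorem EvC.dg_u (n : ℕ) : EvC fun q => ∀ d : Pk n, PkOk q d → ∀ z, DgOk q d z →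
    d.u q z ≤ d.uth q / 2 ∧ d.u q z ≤ d.uth q := by
  have e1 : EvC fun q => q.η ≤ 1 / 100 :=
    EvC.at_η (fun _ t => t ≤ 1 / 100) fun _ => sml_le (by norm_num)
  refine (e1.and EvC.pos).mono ?_
  rintro q ⟨h1, ⟨-, -, -, -, -, h2, h3, h4⟩⟩ d ok z hz
  have l0 := H606.EP.l0_ge ok h3 h4
  have l1 := H606.EP.l0_le ok h4
  have l2 : 2 * q.η * q.R ≤ 2 * (1 / 100) * q.R := by gcongr
  have hu := hz.uu
  have hup := hz.up
  unfold Pk.uth
  constructor <;> linarith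

end Vale.Agent.P088.R2.H850.E
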