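import Vale.Agent.P088.R2.H455.E.Top
import Vale.Agent.P088.R2.H850.E.Dg
import Vale.Agent.P088.R2.H850.E.LwL

/-!
# P088, stage 3, EST': the row `WtB` from the leaves

`RowG0`: every leaf pays for the gain of order zero; `RowDg k`: the margin of the leaf `k` near the
diagonal; `rowWb_top`: the row `WtB`.
-/

open Set Filter
open scoped ContDiff Topology

noncomputable section

namespace Vale.Agent.P088.R2.H850.E

open Vale.Agent.P088.LR Vale.Agent.P088.HY Vale.Agent.P088.HY.T3 Vale.Agent.P088.HY.T4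
open Vale.Agent.P088.R2.H269 (ky Zi Wt)
open Vale.Agent.P088.R2.H31.EP
open Vale.Agent.P088.R2.H455.E
open Vale.Agent.P088.R2.H551.E
open Vale.Agent.P088.R2.H867.EP

variable {n : ℕ} {M co : Fam n}

/-- **Row G0**: the gain of order zero (a part of the row Gain). -/
def RowG0 (M : Fam n) : Prop := EvC fun q => ∀ d : Pk n, PkOk q d → ∀ k z, d.ch q k z ≠ 0 →
  G0 q.R ≤ lw (M q d k) z

/-- **Row Dg**: the margin of the leaf `k` near the diagonal. -/
def RowDg (M : Fam n) (k : Zo) : Prop := ∃ c C : Cst → ℝ, NoR c ∧ NoR C ∧ EvC fun q =>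
  0 < c q ∧ 0 ≤ C q ∧ ∀ d : Pk n, PkOk q d → ∀ z, DgOk q d z → d.ch q k z ≠ 0 →
    c q * q.R ^ (-(C q)) * min (Real.exp (d.u q z)) (Real.exp (d.u q z / 2)) ≤ lw (M q d k) z

theorem zos_ne : zos.Nonempty := ⟨.z0, mem_zos _⟩

theorem G0_pos {R : ℝ} (h : 0 < R) : 0 < G0 R := Real.rpow_pos_of_pos h _

/-- **Row WtB.** -/
theorem rowWb_top (hn : 0 < n) (hC : RowCt M co) (hG : RowG0 M) (hD : ∀ k, RowDg M k) :
    RowWb n (wzF M) := by
  choose c C hc hCR hD using hD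
  refine RowWb.half (rowWb_ws hn zos (ch := fun q d => d.ch q) (Mz := fun q d => M q d)
    (c := fun q => zos.inf' zos_ne fun k => c k q)
    (C := fun q => zos.sup' zos_ne fun k => C k q)
    (fun q R => by simp only [hc _ q R]) (fun q R => by simp only [hCR _ q R]) ?_)
  refine (((hC.and hG).and (evZo hD)).and ((EvC.dg hn).and EvC.pos)).mono ?_
  rintro q ⟨⟨⟨h1, h2⟩, h3⟩, h4, h5⟩
  have hR : 1 ≤ q.R := h5.2.2.2.2.2.2.2
  have hR0 : 0 < q.R := by linarith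
  refine ⟨?_, ?_, fun d ok => ⟨fun k _ => (h1 d ok k).1, d.ch_sum q, fun z k _ hk =>
    (G0_pos hR0).trans_le (h2 d ok k z hk), fun x hx y hy hxy k _ hk => ?_⟩⟩
  · exact (Finset.lt_inf'_iff _).2 fun k _ => (h3 k).1
  · exact (h3 .z0).2.1.trans (Finset.le_sup' (fun k => C k q) (mem_zos .z0))
  · refine le_trans ?_ ((h3 k).2.2 d ok _ (h4 d ok x hx y hy hxy) hk)
    have a1 : zos.inf' zos_ne (fun k => c k q) ≤ c k q :=
      Finset.inf'_le (fun k => c k q) (mem_zos k)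
    have a2 : C k q ≤ zos.sup' zos_ne (fun k => C k q) :=
      Finset.le_sup' (fun k => C k q) (mem_zos k)
    have a3 : q.R ^ (-(zos.sup' zos_ne fun k => C k q)) ≤ q.R ^ (-(C k q)) :=
      Real.rpow_le_rpow_of_exponent_le hR (by linarith)
    have a4 : 0 ≤ min (Real.exp (d.u q (q.R • (x, y)))) (Real.exp (d.u q (q.R • (x, y)) / 2)) :=
      le_min (Real.exp_pos _).le (Real.exp_pos _).le
    refine mul_le_mul_of_nonneg_right ?_ a4
    exact mul_le_mul a1 a3 (Real.rpow_pos_of_pos hR0 _).le ((h3 k).1.le)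

/-! ## The leaves -/

/-- The dead leaves. -/
theorem rowDg_dead (M : Fam n) {k : Zo} (hk : ¬DgZ k) : RowDg M k := by
  refine ⟨fun _ => 1, fun _ => 0, fun _ _ => rfl, fun _ _ => rfl, (EvC.dg_dead n).mono ?_⟩
  intro q h
  exact ⟨one_pos, le_rfl, fun d ok z hz h0 => absurd (h d ok z hz k h0) hk⟩

/-- The leaves where `E` is bounded near the diagonal. -/
def EBd (n : ℕ) (k : Zo) : Prop := ∃ A : Cst → ℝ, NoR A ∧ EvC fun q => 0 < A q ∧
  ∀ d : Pk n, PkOk q d → ∀ z, DgOk q d z → d.ch q k z ≠ 0 → Real.exp (d.u q z) ≤ A q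

theorem rowDg_bd (hG : RowG0 M) {k : Zo} (h : EBd n k) : RowDg M k := by
  obtain ⟨A, hA, h⟩ := h
  refine ⟨fun q => 1 / A q, fun _ => 7 / 2, fun q R => by simp only [hA q R], fun _ _ => rfl, ?_⟩
  refine ((hG.and h).and EvC.pos).mono ?_
  rintro q ⟨⟨h1, h2, h3⟩, h5⟩
  have hR : 1 ≤ q.R := h5.2.2.2.2.2.2.2
  refine ⟨by positivity, by norm_num, fun d ok z hz hk => le_trans ?_ (h1 d ok k z hk)⟩
  have a1 := h3 d ok z hz hk
  have a2 : 0 < q.R ^ (-(7 / 2) : ℝ) := Real.rpow_pos_of_pos (by linarith) _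
  show 1 / A q * q.R ^ (-(7 / 2) : ℝ) * _ ≤ q.R ^ (-(7 / 2) : ℝ)
  calc 1 / A q * q.R ^ (-(7 / 2) : ℝ) *
        min (Real.exp (d.u q z)) (Real.exp (d.u q z / 2))
      ≤ 1 / A q * q.R ^ (-(7 / 2) : ℝ) * A q :=
        mul_le_mul_of_nonneg_left ((min_le_left _ _).trans a1) (by positivity)
    _ = q.R ^ (-(7 / 2) : ℝ) := by field_simp

theorem noR_Nb : NoR H606.EP.Nb := fun _ _ => rfl

/-- The slope is bounded near the diagonal. -/
theorem EvC.dg_N (n : ℕ) : EvC fun q => 0 < q.aC ∧ 0 < H606.EP.Nb q ∧ ∀ d : Pk n, PkOk q d →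
    (d.cp q).Ok ∧ ∀ z, DgOk q d z → 1 ≤ d.N q z ∧ d.N q z ≤ H606.EP.Nb q := by
  have e0 : EvC fun q => 0 < q.ph.Cb := EvC.good.mono fun q h => h.1.1.Cb0
  refine (((EvC.dg_u n).and (EvC.cpOk n)).and (EvC.pos.and e0)).mono ?_
  rintro q ⟨⟨h1, h2⟩, ⟨⟨-, -, -, -, a5, -⟩, -, m1, -⟩, h0⟩
  refine ⟨a5, ?_, fun d ok => ⟨h2 d ok, fun z hz => ⟨m1.trans (ok.N_ge _), ?_⟩⟩⟩
  · unfold H606.EP.Nb
    have := abs_pos.2 h0.ne'
    positivity
  · have hu := (h1 d ok z hz).2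
    have h3 := ok.top.c1 (d.u q z) hu
    have h4 := ok.ph.isΦ.n2 (d.u q z)
    have h5 := ok.ph.isΦ.n1 (d.u q z)
    have h6 : Real.exp (d.u q z - d.uth q) ≤ 1 := Real.exp_le_one_iff.2 (by linarith)
    have h7 := Real.exp_pos (d.u q z - d.uth q)
    have h8 : 1 + q.ph.CT * Real.exp (d.u q z - d.uth q) ≤ 1 + |q.ph.CT| := by
      have h9 : q.ph.CT * Real.exp (d.u q z - d.uth q) ≤ |q.ph.CT| * 1 :=
        mul_le_mul (le_abs_self _) h6 h7.le (abs_nonneg _)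
      linarith
    have h9 : deriv d.Φ₁ (d.u q z) ≤ |q.ph.Cb| * q.M₀ :=
      h4.trans (mul_le_mul_of_nonneg_right (le_abs_self _) (by linarith))
    have h10 := abs_nonneg q.ph.CT
    exact h3.trans (mul_le_mul h8 h9 (by linarith) (by linarith))

theorem ebd_z0 (n : ℕ) : EBd n .z0 := by
  refine ⟨fun q => 2 * H606.EP.Nb q / q.aC, fun q R => rfl, (EvC.dg_N n).mono ?_⟩
  rintro q ⟨h1, h2, h3⟩
  refine ⟨by positivity, fun d ok z hz hk => ?_⟩
  obtain ⟨hP, h4⟩ := h3 d ok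
  obtain ⟨h5, h6⟩ := h4 z hz
  have h7 := sd_z0 hk hP h1 (by linarith)
  rw [le_div_iff₀ h1]
  show d.E q z * q.aC ≤ _
  linarith

theorem ebd_C (n : ℕ) {k : Zo} (hk : k = .zI ∨ k = .z2a) : EBd n k := by
  refine ⟨fun q => 2 * H606.EP.Nb q ^ (13 / 5 : ℝ), fun q R => rfl, (EvC.dg_N n).mono ?_⟩
  rintro q ⟨h1, h2, h3⟩
  refine ⟨by positivity, fun d ok z hz h0 => ?_⟩
  obtain ⟨hP, h4⟩ := h3 d ok
  obtain ⟨h5, h6⟩ := h4 z hz
  have h7 := sd_C h0 hk hP (by linarith)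
  refine h7.trans (mul_le_mul_of_nonneg_left ?_ (by norm_num))
  exact Real.rpow_le_rpow (by linarith) h6 (by norm_num)

/-- **Row WtB from the leaves `zB`, `z2b`, `A1`** (and the bound of `E` in the tubes). -/
theorem rowWb_leaves (hn : 0 < n) (hC : RowCt M co) (hG : RowG0 M) (hT₁ : EBd n .T1)
    (hT₂ : EBd n .T2) (hB : RowDg M .zB) (h2 : RowDg M .z2b) (hA : RowDg M .A1) :
    RowWb n (wzF M) := by
  refine rowWb_top hn hC hG fun k => ?_
  cases k
  case z0 => exact rowDg_bd hG (ebd_z0 n)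
  case zI => exact rowDg_bd hG (ebd_C n (Or.inl rfl))
  case z2a => exact rowDg_bd hG (ebd_C n (Or.inr rfl))
  case zB => exact hB
  case z2b => exact h2
  case T1 => exact rowDg_bd hG hT₁
  case T2 => exact rowDg_bd hG hT₂
  case A1 => exact hA
  all_goals exact rowDg_dead M (by unfold DgZ Near; decide)

end Vale.Agent.P088.R2.H850.E
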