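import Vale.Agent.P088.R2.H935.G.Gp
import Vale.Agent.P088.R2.H850.E.WbTop

/-!
# P088, stage 3, EST': the row G0 from the gain rows of the leaves
-/

open Set Filter
open scoped ContDiff Topology

noncomputable section

namespace Vale.Agent.P088.R2.H850.E

open Vale.Agent.P088.LR Vale.Agent.P088.HY
open Vale.Agent.P088.R2.H31.EP
open Vale.Agent.P088.R2.H455.E
open Vale.Agent.P088.R2.H551.E
open Vale.Agent.P088.R2.H867.EP
open Vale.Agent.P088.R2.H935.G (RowGL GLe)

variable {n : ℕ} {M : Fam n}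

/-- **Row G0 from the gain rows.** -/
theorem rowG0_of {g : Zo → Cst → ℝ} (hg : ∀ k, NoM (g k)) (h : ∀ k, RowGL M k (g k)) :
    RowG0 M := by
  have hA : EvC fun q => ∀ k, 0 < g k q ∧
      ∀ d : Pk n, PkOk q d → ∀ z, d.ch q k z ≠ 0 → GLe q d (M q d k) (g k q * (q.R ^ 2)⁻¹) z :=
    evZo (P := fun k q => 0 < g k q ∧ ∀ d : Pk n, PkOk q d → ∀ z, d.ch q k z ≠ 0 →
      GLe q d (M q d k) (g k q * (q.R ^ 2)⁻¹) z) h
  have hR : EvC fun q => ∀ k, 0 < g k q → G0 q.R ≤ g k q * (q.R ^ 2)⁻¹ := by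
    refine evZo (P := fun k q => 0 < g k q → G0 q.R ≤ g k q * (q.R ^ 2)⁻¹) fun k => ?_
    have h1 := EvC.at_R (fun q t => 0 < g k q → G0 t ≤ g k q * (t ^ 2)⁻¹) fun q => by
      by_cases hq : 0 < g k q
      · have h2 : Tendsto (fun t : ℝ => t ^ (-(3 / 2) : ℝ)) atTop (𝓝 0) :=
          tendsto_rpow_neg_atTop (by norm_num)
        have h3 : ∀ᶠ t : ℝ in atTop, t ^ (-(3 / 2) : ℝ) < g k q :=
          h2.eventually (gt_mem_nhds hq)
        filter_upwards [h3, eventually_gt_atTop 0] with t a1 a2 _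
        have e1 : G0 t = t ^ (-(3 / 2) : ℝ) * (t ^ 2)⁻¹ := by
          unfold G0
          rw [show (-(7 / 2) : ℝ) = -(3 / 2) + (-2) by norm_num, Real.rpow_add a2,
            Real.rpow_neg a2.le 2]
          norm_num
        rw [e1]
        exact mul_le_mul_of_nonneg_right a1.le (by positivity)
      · exact Eventually.of_forall fun _ hc => absurd hc hq
    refine h1.mono fun q hq => ?_
    have e : g k q.b_R = g k q := hg k q q.kv q.ε q.η q.Ck 0
    rw [e] at hq
    exact hq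
  refine (hA.and hR).mono ?_
  rintro q ⟨h1, h2⟩ d ok k z hz
  exact (h2 k (h1 k).1).trans ((h1 k).2 d ok z hz).o

end Vale.Agent.P088.R2.H850.E
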