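import Vale.Agent.P088.R2.H710.EP.GQ
import Vale.Agent.P088.R2.H281.EP.Prs
import Vale.Agent.P088.R2.H850.E.WbTop

/-!
# P088, stage 3, EST': `E` is bounded in the tubes near the diagonal
-/

open Set Filter
open scoped ContDiff Topology

noncomputable section

namespace Vale.Agent.P088.R2.H850.E

open Vale.Agent.P088.LR Vale.Agent.P088.HY
open Vale.Agent.P088.R2.H31.EP
open Vale.Agent.P088.R2.H455.E
open Vale.Agent.P088.R2.H867.EP
open Vale.Agent.P088.R2.H710.GP (GC evG Tb tb_x tb_y gx gy sq_gx sq_gy en_nn en_sq rr rr_nn rr_sq)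

variable {n : ℕ} {q : Cst} {d : Pk n} {z : VV n}

/-- `L ≥ 3/2` up to the radius `n + 1`. -/
theorem EvC.prL_big (n : ℕ) : EvC fun q => H509.Rad.Ok q.e₁ rp ∧
    ∀ r : ℝ, 0 < r → r ≤ n + 1 → 3 / 2 ≤ prL q.e₁ r := by
  refine EvC.at_e₁ (fun _ t => H509.Rad.Ok t rp ∧ ∀ r : ℝ, 0 < r → r ≤ n + 1 → 3 / 2 ≤ prL t r)
    fun _ => ?_
  refine ev_sml (a := min (1 / 100) (1 / (4 * (n + 1)))) (by positivity) fun t h0 h1 => ?_
  have h2 := h1.trans (min_le_left _ _)
  have h3 := h1.trans (min_le_right _ _)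
  have ok := rad_ok h0 h2
  refine ⟨ok, fun r r0 r1 => ?_⟩
  rcases le_total r 1 with h4 | h4
  · have e : prL t r = H644.Lz 2 r :=
      (H606.EP.pp_ok h0).Lf_eq r0 (by unfold rp; linarith)
    rw [e]
    have := H644.le_Lz (θ := 2) (by norm_num) r0
    linarith
  · have h5 := ok.L_ge h4
    have h6 : t * Real.log r ≤ 1 / 4 := by
      have h7 : Real.log r ≤ n + 1 := by
        have := Real.log_le_sub_one_of_pos r0
        linarith
      have h8 : 0 ≤ Real.log r := Real.log_nonneg h4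
      calc t * Real.log r ≤ 1 / (4 * (n + 1)) * (n + 1) :=
            mul_le_mul h3 h7 h8 (by positivity)
        _ = 1 / 4 := by field_simp
    have h9 : 3 / 4 ≤ Real.exp (-(t * Real.log r)) := by
      have := Real.add_one_le_exp (-(t * Real.log r))
      linarith
    show 3 / 2 ≤ H509.Rad.Lr t rp r
    linarith

theorem ebd_T {k : Zo} (hk : k = .T1 ∨ k = .T2) : EBd n k := by
  refine ⟨fun q => 32 * H606.EP.Nb q / q.c₀ ^ 2, fun q R => rfl, ?_⟩
  have e0 : EvC fun q => 0 < q.ph.Cb := EvC.good.mono fun q h => h.1.1.Cb0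
  have e1 : EvC fun q => q.c₀ ≤ 1 :=
    EvC.at_c₀ (fun _ t => t ≤ 1) fun _ => sml_le (by norm_num)
  refine ((((EvC.dg_N n).and evG).and ((EvC.prL_big n).and (EvC.p1_big (n + 1)))).and
    (((EvC.rq n).and (EvC.lvG n)).and ((EvC.dg_u n).and (e0.and (e1.and EvC.pos))))).mono ?_
  rintro q ⟨⟨⟨⟨-, n2, n3⟩, g⟩, ⟨r1, r2⟩, p1⟩, ⟨rq, lg⟩, du, c0, cc, ⟨⟨-, -, -, -, -, a6, -⟩, ⟨b1, -⟩,
    m1, -⟩⟩
  refine ⟨by positivity, fun d ok z hz h0 => ?_⟩
  obtain ⟨hP, hN⟩ := n3 d ok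
  have hl := lg d ok
  have hn : (0 : ℝ) ≤ n := Nat.cast_nonneg n
  have hni : ¬Inf k := by
    unfold Inf
    rcases hk with rfl | rfl <;> decide
  have hno := sd_near h0 hni b1 g.inf.κ1 hl
  have hoff := sd_off h0 (by unfold Off; rcases hk with rfl | rfl <;> simp) hP
  have hq := ((rq d ok).2 z).2.2
  have hqz : q.c₀ ^ 2 / 2 ≤ qq z := by
    have : d.r2 z = 2 * H464.Cu.rq (gi d.s₁) z := rfl
    linarith
  have hqp : 0 < qq z := lt_of_lt_of_le (by positivity) hqz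
  have hr0 : 0 < rr z := by
    rcases (rr_nn z).lt_or_eq with h | h
    · exact h
    · exfalso
      have := rr_sq z
      rw [← h] at this
      nlinarith
  have hrn : rr z ≤ n + 1 := by
    have := rr_sq z
    have := hz.qn
    nlinarith [rr_nn z]
  have hNG : 0 < d.NG q z := by
    have := ok.NG_ge r1 z
    linarith
  have hrT := g.rT0
  have T : Tb q d z q.rT := by
    rcases hk with rfl | rfl
    · refine tb_x g ok hno hr0 (by linarith) (by linarith [g.rT1]) ?_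
      have := sd_T1 hrT hNG h0
      rw [sq_gx] at this
      exact (abs_le_of_sq_le_sq' this.le (by positivity)).2
    · refine tb_y g ok hno hr0 (by linarith) (by linarith [g.rT1]) ?_
      have := sd_T2 hrT hNG h0
      rw [sq_gy] at this
      exact (abs_le_of_sq_le_sq' this.le (by positivity)).2
  have k1 := T.N_lo
  have hL := r2 _ hr0 hrn
  have hG := PkOk.G0_nonneg (d := d) r1 z
  have hNu : 0 < deriv d.Φ (d.u0 z) := ok.N_pos m1 _
  have k2 : q.rT + 3 * q.σ ≤ 1 / 200 := by linarith [g.rT1, g.σ1]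
  have k3 : d.G0 q z ≤ 3 * deriv d.Φ (d.u0 z) := by
    have e : d.NG q z = deriv d.Φ (d.u0 z) + d.G0 q z := rfl
    have k4 := mul_le_mul_of_nonneg_right k2 hNG.le
    have k5 : 1 / 2 * d.G0 q z ≤ (prL q.e₁ (rr z) - 1) * d.G0 q z :=
      mul_le_mul_of_nonneg_right (by linarith) hG
    linarith
  -- the slope at `u0`
  have k6 : deriv d.Φ (d.u0 z) ≤ H606.EP.Nb q := by
    have h1 : d.u0 z ≤ d.uth q := by
      have := (du d ok z hz).2
      have h2 := hz.up
      have h3 := H606.EP.l0_ge ok g.inf.C1 g.inf.R1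
      unfold Pk.uth
      linarith [g.inf.R1]
    have h3 := ok.top.c1 _ h1
    have h4 := ok.ph.isΦ.n2 (d.u0 z)
    have h5 := ok.ph.isΦ.n1 (d.u0 z)
    have h6 : Real.exp (d.u0 z - d.uth q) ≤ 1 := Real.exp_le_one_iff.2 (by linarith)
    have h7 := Real.exp_pos (d.u0 z - d.uth q)
    have h8 : 1 + q.ph.CT * Real.exp (d.u0 z - d.uth q) ≤ 1 + |q.ph.CT| := by
      have h9 : q.ph.CT * Real.exp (d.u0 z - d.uth q) ≤ |q.ph.CT| * 1 :=
        mul_le_mul (le_abs_self _) h6 h7.le (abs_nonneg _)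
      linarith
    have h9 : deriv d.Φ₁ (d.u0 z) ≤ |q.ph.Cb| * q.M₀ :=
      h4.trans (mul_le_mul_of_nonneg_right (le_abs_self _) (by linarith))
    have h10 := abs_nonneg q.ph.CT
    exact h3.trans (mul_le_mul h8 h9 (by linarith) (by linarith))
  have he := r1.e0
  have k7 : q.c₀ ^ 2 / 4 ≤ prS q.e₁ (qq z) := by
    have h1 : q.c₀ ^ 2 / 2 / 2 ≤ prS q.e₁ (q.c₀ ^ 2 / 2) :=
      H281.EP.prS_ge1 he (by positivity) (by nlinarith)
    have h2 := H281.EP.prS_mono he (mem_Ici.2 (by positivity : 0 ≤ q.c₀ ^ 2 / 2))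
      (mem_Ici.2 hqp.le) hqz
    linarith
  have k8 : Real.exp (d.u0 z) * (q.c₀ ^ 2 / 4) ≤ 3 * H606.EP.Nb q := by
    have h1 : Real.exp (d.u0 z) * (q.c₀ ^ 2 / 4) ≤ d.G0 q z :=
      mul_le_mul_of_nonneg_left k7 (Real.exp_pos _).le
    linarith
  have k9 : Real.exp (d.u q z) ≤ 2 * Real.exp (d.u0 z) := by
    have h1 : Real.exp (d.u q z) ≤ Real.exp (d.u0 z + 1 / 4) := Real.exp_le_exp.2 hz.uu
    rw [Real.exp_add] at h1
    have h2 : Real.exp (1 / 4) ≤ 2 := by
      have h3 : Real.exp (1 / 4) ^ 4 ≤ 2 ^ 4 := by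
        rw [← Real.exp_nat_mul]
        norm_num
        linarith [Real.exp_one_lt_d9]
      exact (pow_le_pow_iff_left₀ (Real.exp_pos _).le (by norm_num) (by norm_num)).1 h3
    have := Real.exp_pos (d.u0 z)
    nlinarith
  rw [le_div_iff₀ (by positivity)]
  nlinarith [Real.exp_pos (d.u0 z), sq_nonneg q.c₀]

end Vale.Agent.P088.R2.H850.E
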