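import Vale.Agent.P088.R2.H850.E.WbTop

/-!
# P088, stage 3, EST': the leaves `zB`, `z2b` near the diagonal
-/

open Set Filter
open scoped ContDiff Topology

noncomputable section

namespace Vale.Agent.P088.R2.H850.E

open Vale.Agent.P088.LR Vale.Agent.P088.HY
open Vale.Agent.P088.R2.H31.EP
open Vale.Agent.P088.R2.H455.E
open Vale.Agent.P088.R2.H551.E
open Vale.Agent.P088.R2.H867.EP
open Vale.Agent.P088.R2.H165.Tab

variable {n : ℕ} {M : Fam n} {k : Zo}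

/-- The margin is at least `c E / R`. -/
def LinDg (M : Fam n) (k : Zo) : Prop := ∃ c : Cst → ℝ, NoR c ∧ EvC fun q => 0 < c q ∧
  ∀ d : Pk n, PkOk q d → ∀ z, DgOk q d z → d.ch q k z ≠ 0 → c q / q.R * d.E q z ≤ lw (M q d k) z

theorem rowDg_lin (h : LinDg M k) : RowDg M k := by
  obtain ⟨c, hc, h⟩ := h
  refine ⟨c, fun _ => 1, hc, fun _ _ => rfl, (h.and EvC.pos).mono ?_⟩
  rintro q ⟨⟨h1, h2⟩, h5⟩
  have hR : 1 ≤ q.R := h5.2.2.2.2.2.2.2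
  refine ⟨h1, zero_le_one, fun d ok z hz hk => le_trans ?_ (h2 d ok z hz hk)⟩
  rw [Real.rpow_neg_one, ← div_eq_mul_inv]
  exact mul_le_mul_of_nonneg_left (min_le_left _ _) (div_nonneg h1.le (by linarith))

/-- On `zB`, `z2b`: `E ≥ 1`. -/
theorem EvC.B_E (n : ℕ) : EvC fun q => ∀ d : Pk n, PkOk q d → ∀ z k, k = Zo.zB ∨ k = Zo.z2b →
    d.ch q k z ≠ 0 → 1 ≤ d.E q z := by
  refine ((EvC.cpOk n).and EvC.pos).mono ?_
  rintro q ⟨h1, ⟨-, -, m1, -⟩⟩ d ok z k hk h0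
  have hN : 1 ≤ d.N q z := m1.trans (ok.N_ge _)
  exact (Real.one_le_rpow hN (by norm_num)).trans (sd_B h0 hk (h1 d ok) (by linarith))

/-- **The leaf `zB`.** -/
theorem linDg_zB {ν : Cst → Pk n → Nu (VV n)} {c : Cst → ℝ} (hM : ∀ q d, M q d .zB = MB (ν q d) (c q))
    (hc : NoR c) (h : EvC fun q => 0 < c q ∧ ∀ d : Pk n, PkOk q d → ∀ z, d.ch q .zB z ≠ 0 →
      (ν q d).En z = d.E q z ∧ 0 ≤ (ν q d).F₁ z ∧ 0 ≤ (ν q d).F₂ z ∧ 0 ≤ (ν q d).m z ∧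
      0 ≤ (ν q d).N z) : LinDg M .zB := by
  refine ⟨c, hc, ((h.and (EvC.B_E n)).and EvC.pos).mono ?_⟩
  rintro q ⟨⟨⟨h1, h2⟩, h3⟩, h5⟩
  have hR : 1 ≤ q.R := h5.2.2.2.2.2.2.2
  refine ⟨h1, fun d ok z _ h0 => ?_⟩
  obtain ⟨a1, a2, a3, a4, a5⟩ := h2 d ok z h0
  have hE := h3 d ok z .zB (Or.inl rfl) h0
  rw [hM q d]
  have h6 := lw_MB (ν := ν q d) (z := z) h1.le (by rw [a1]; exact hE) a2 a3 a4 a5
  rw [a1] at h6
  refine le_trans (mul_le_mul_of_nonneg_right ?_ (by linarith)) h6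
  exact div_le_self h1.le hR

/-- On `z2b` near the diagonal: `m ≥ 1/2`. -/
theorem EvC.m_ge (n : ℕ) : EvC fun q => ∀ d : Pk n, PkOk q d → ∀ z, d.ch q .z2b z ≠ 0 →
    1 / 2 ≤ d.m q z := by
  have e1 : EvC fun q => q.σ ≤ 1 := EvC.at_σ (fun _ t => t ≤ 1) fun _ => sml_le one_pos
  refine (((EvC.B_E n).and (EvC.cpOk n)).and ((EvC.rq n).and (e1.and EvC.pos))).mono ?_
  rintro q ⟨⟨h1, h2⟩, h3, h4, ⟨-, -, -, -, -, -, -, -, -, c1⟩, ⟨-, s0, -⟩, -, -, -, -, -, hR⟩ d ok z h0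
  have hE := h1 d ok z .z2b (Or.inr rfl) h0
  have h5 := sd_z2b h0 (h2 d ok) ((h3 d ok).2 z).1
  have hu : 0 ≤ d.u q z := by
    have h6 : Real.exp 0 ≤ Real.exp (d.u q z) := by rw [Real.exp_zero]; exact hE
    exact Real.exp_le_exp.1 h6
  have hc : 0 < q.σ / (q.CB * q.R) := by positivity
  have hc1 : q.σ / (q.CB * q.R) ≤ 1 := by
    rw [div_le_one (by positivity)]
    nlinarith
  have h6 := H932.EP.le_m1x hc (d.ξ_is q) (d.u q z)
  refine le_trans ?_ (h6.trans h5)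
  have h7 : 1 ≤ Real.exp (26 / 100 * d.u q z) := Real.one_le_exp (by positivity)
  have h8 : 1 ≤ (q.σ / (q.CB * q.R) * d.ξ q (d.u q z))⁻¹ := by
    have a1 := (d.ξ_is q).pos (d.u q z)
    have a2 := (d.ξ_is q).le (d.u q z)
    rw [one_le_inv₀ (by positivity)]
    nlinarith
  have h9 := le_min h7 h8
  linarith

/-- **The leaf `z2b`.** -/
theorem linDg_z2b {ν : Cst → Pk n → Nu (VV n)} (hM : ∀ q d, M q d .z2b = MII (ν q d))
    {k₀ c : Cst → ℝ} (hk₀ : NoR k₀) (hc : NoR c)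
    (h : EvC fun q => 0 < k₀ q ∧ 0 < c q ∧ ∀ d : Pk n, PkOk q d → ∀ z, d.ch q .z2b z ≠ 0 →
      (ν q d).En z = d.E q z ∧ 0 ≤ (ν q d).r2 z ∧ k₀ q / q.R ≤ (ν q d).k z ∧
      c q * (d.E q z * d.m q z) ≤ (ν q d).F₁ z ∧ c q * (d.E q z * d.m q z) ≤ (ν q d).F₂ z) :
    LinDg M .z2b := by
  refine ⟨fun q => k₀ q * c q / 8, fun q R => by simp only [hk₀ q R, hc q R],
    ((h.and (EvC.m_ge n)).and EvC.pos).mono ?_⟩
  rintro q ⟨⟨⟨h0, h1, h2⟩, h3⟩, h5⟩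
  have hR : 1 ≤ q.R := h5.2.2.2.2.2.2.2
  refine ⟨by positivity, fun d ok z _ hz => ?_⟩
  obtain ⟨a1, a2, a3, a4, a5⟩ := h2 d ok z hz
  have hm := h3 d ok z hz
  have hE : 0 < d.E q z := Real.exp_pos _
  have hk : 0 < k₀ q / q.R := by positivity
  have hk' : 0 ≤ (ν q d).k z := hk.le.trans a3
  have hEm : 1 / 2 * d.E q z ≤ d.E q z * d.m q z := by nlinarith
  have b0 : c q * (1 / 2 * d.E q z) ≤ c q * (d.E q z * d.m q z) :=
    mul_le_mul_of_nonneg_left hEm h1.le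
  have key : ∀ F : ℝ, c q * (d.E q z * d.m q z) ≤ F →
      k₀ q * c q / 8 / q.R * d.E q z ≤ 1 / 4 * ((ν q d).k z * F) := by
    intro F hF
    have b1 := mul_le_mul a3 (b0.trans hF) (by positivity) hk'
    have e : k₀ q * c q / 8 / q.R * d.E q z =
        1 / 4 * (k₀ q / q.R * (c q * (1 / 2 * d.E q z))) := by
      field_simp
      ring
    rw [e]
    linarith
  have F1 : 0 ≤ (ν q d).F₁ z := le_trans (by positivity) (b0.trans a4)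
  have F2 : 0 ≤ (ν q d).F₂ z := le_trans (by positivity) (b0.trans a5)
  rw [hM q d]
  refine le_lw₁ (nn_MII hk' a2 F1 F2) (key _ a4) (key _ a5)

end Vale.Agent.P088.R2.H850.E
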