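import Vale.Agent.P088.R2.H455.E.Lett
import Vale.Agent.P088.R2.H294.E.A1
import Vale.Agent.P088.R2.H850.E.TE
import Vale.Agent.P088.R2.H850.E.WbLf
import Vale.Agent.P088.R2.H850.E.GzF

/-!
# P088, stage 3, EST': the row `WtB` for the letters `Mz L`

`rowWb_L`: `RowWb n (wzF (Mz L))` from the continuity of the letters, the gain rows, the support of
zone A and two facts on the leaf `z2b`.
-/

open Set Filter
open scoped ContDiff Topology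

noncomputable section

namespace Vale.Agent.P088.R2.H850.E

open Vale.Agent.P088.LR Vale.Agent.P088.HY
open Vale.Agent.P088.R2.H31.EP
open Vale.Agent.P088.R2.H455.E
open Vale.Agent.P088.R2.H551.E
open Vale.Agent.P088.R2.H867.EP
open Vale.Agent.P088.R2.H165.Tab

variable {n : ℕ} {L : Lc n}

/-- **Row K**: the convexity weight of zone II is at least `k₀ / R` on `z2b`. -/
def RowK2 (L : Lc n) : Prop := ∃ k₀ : Cst → ℝ, NoR k₀ ∧ EvC fun q => 0 < k₀ q ∧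
  ∀ d : Pk n, PkOk q d → ∀ z, d.ch q .z2b z ≠ 0 → k₀ q / q.R ≤ L.kz q d z

/-- **Row F**: the gradients are at least `c E r` on `z2b`. -/
def RowF2 (n : ℕ) : Prop := ∃ c : Cst → ℝ, NoR c ∧ EvC fun q => 0 < c q ∧
  ∀ d : Pk n, PkOk q d → ∀ z, d.ch q .z2b z ≠ 0 →
    c q * (d.E q z * d.m q z) ≤ d.sx.F (d.W q) z ∧ c q * (d.E q z * d.m q z) ≤ d.sy.F (d.W q) z

theorem noR_ηc {f : Cst → ℝ} (h : NB_ηc f) : NoR f := fun q R => by
  have h1 := h { q with R := R }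
  have h2 := h q
  rw [← h1, ← h2]
  rfl

theorem EvC.ε_n (n : ℕ) : EvC fun q => (n : ℝ) * q.ε ≤ 1 / 2 := by
  have hε : EvC fun q => 0 < (1 : ℝ) / (2 * (n + 1)) → q.ε ≤ 1 / (2 * (n + 1)) :=
    EvC.ε_le (fun _ => 1 / (2 * (n + 1))) fun _ => rfl
  refine (hε.and EvC.pos).mono ?_
  rintro q ⟨h1, -, -, -, -, h2, -⟩
  have hn : (0 : ℝ) ≤ n := Nat.cast_nonneg n
  have h3 := h1 (by positivity)
  rw [le_div_iff₀ (by positivity)] at h3
  nlinarith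

/-- **Row WtB.** -/
theorem rowWb_L (hn : 0 < n) (hL : L.Ok) (hC : CtE L) (hG : RowG0 (Mz L)) (hS : H747.A.RowSup n)
    (hK : RowK2 L) (hF : RowF2 n) : RowWb n (wzF (Mz L)) := by
  refine rowWb_leaves hn (hC (fun _ => 1) ⟨fun _ => rfl, fun _ => one_pos⟩) hG (ebd_T (Or.inl rfl))
    (ebd_T (Or.inr rfl)) (rowDg_lin ?_) (rowDg_lin ?_) (rowDg_lin ?_)
  · refine linDg_zB (ν := nu L.kz) (c := L.cB) (fun _ _ => rfl) (noR_ηc hL.cB.2) ?_
    refine (((EvC.ε_n n).and (EvC.rq n)).and EvC.pos).mono ?_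
    rintro q ⟨⟨h1, h2⟩, ⟨-, -, m1, -⟩⟩
    refine ⟨hL.cB.1 q, fun d ok z _ => ⟨rfl, ?_, ?_, ?_, ?_⟩⟩
    · refine le_trans ?_ (H294.E.F_x ok h1 (d.W q) z)
      exact mul_nonneg (by norm_num) (Finset.sum_nonneg fun _ _ => sq_nonneg _)
    · refine le_trans ?_ (H294.E.F_y ok h1 (d.W q) z)
      exact mul_nonneg (by norm_num) (Finset.sum_nonneg fun _ _ => sq_nonneg _)
    · have h3 := ((h2 d ok).2 z).1
      show 0 ≤ d.E q z * (2 * H464.Cu.rq (gi d.s₁) z)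
      exact mul_nonneg (Real.exp_pos _).le (by linarith)
    · exact (ok.N_pos m1 _).le
  · obtain ⟨k₀, hk₀, hK⟩ := hK
    obtain ⟨c, hc, hF⟩ := hF
    refine linDg_z2b (ν := nu L.kz) (fun _ _ => rfl) hk₀ hc ?_
    refine ((hK.and hF).and (EvC.rq n)).mono ?_
    rintro q ⟨⟨⟨h1, h2⟩, h3, h4⟩, h5⟩
    refine ⟨h1, h3, fun d ok z hz => ⟨rfl, ?_, h2 d ok z hz, (h4 d ok z hz).1, (h4 d ok z hz).2⟩⟩
    have h3 := ((h5 d ok).2 z).1
    show 0 ≤ 2 * H464.Cu.rq (gi d.s₁) z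
    linarith
  · obtain ⟨c, hc, h⟩ := H294.E.lwA1 n hS L.μA hL.μA.1 L.kA
    refine ⟨c, hc, h.mono ?_⟩
    rintro q ⟨h1, h2⟩
    exact ⟨h1, fun d ok z hz h0 => h2 d ok z h0 hz.qn⟩

/-- **Row WtB from the gain rows.** -/
theorem rowWb_LG (hn : 0 < n) (hL : L.Ok) (hC : CtE L) {g : Zo → Cst → ℝ}
    (hg : ∀ k, NoM (g k)) (hG : ∀ k, H935.G.RowGL (Mz L) k (g k)) (hS : H747.A.RowSup n)
    (hK : RowK2 L) (hF : RowF2 n) : RowWb n (wzF (Mz L)) :=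
  rowWb_L hn hL hC (rowG0_of hg hG) hS hK hF

end Vale.Agent.P088.R2.H850.E
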