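import Vale.Agent.P088.R2.H850.E.Gq
import Vale.Agent.P088.R2.H31.EP.Wgt

/-!
# P088, stage 3: the weight of EST' has quadratic growth

`WT F Θ P l g`: everything but `Θ (l x) + Θ (l y)` is composed with a bounded retraction with
bounded derivatives.
-/

open Set Filter
open scoped ContDiff Topology

noncomputable section

namespace Vale.Agent.P088.R2.H850.E

open Vale.Agent.P088.LR
open Vale.Agent.P088.HY (VV)
open Vale.Agent.P088.R2.H269 (qf Wt)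
open Vale.Agent.P088.R2.H31.EP (Fu WW WT)

section gen

variable {E G H : Type*} [NormedAddCommGroup E] [NormedSpace ℝ E] [NormedAddCommGroup G]
  [NormedSpace ℝ G] [NormedAddCommGroup H] [NormedSpace ℝ H]

/-- A map with bounds of the first and second derivative. -/
structure V2 (P : E → G) (z : E) (a b : ℝ) : Prop where
  a0 : 0 ≤ a
  b0 : 0 ≤ b
  sm : ContDiffAt ℝ 2 P z
  d1 : ∀ v, ‖fderiv ℝ P z v‖ ≤ a * ‖v‖
  d2 : ∀ v w, ‖fderiv ℝ (fun x => fderiv ℝ P x v) z w‖ ≤ b * (‖v‖ * ‖w‖)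

variable {z : E} {a b A B : ℝ}

theorem V2.mono {P : E → G} (h : V2 P z a b) (ha : a ≤ A) (hb : b ≤ B) : V2 P z A B :=
  ⟨h.a0.trans ha, h.b0.trans hb, h.sm,
    fun v => (h.d1 v).trans (mul_le_mul_of_nonneg_right ha (norm_nonneg _)),
    fun v w => (h.d2 v w).trans (mul_le_mul_of_nonneg_right hb (by positivity))⟩

theorem ev_diffV {P : E → G} (h : ContDiffAt ℝ 2 P z) : ∀ᶠ w in 𝓝 z, DifferentiableAt ℝ P w := by
  have : ∀ᶠ w in 𝓝 z, ContDiffAt ℝ 2 P w := h.eventually (by simp)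
  filter_upwards [this] with w hw using hw.differentiableAt (by norm_num)

theorem fd_diffV {P : E → G} (h : ContDiffAt ℝ 2 P z) : DifferentiableAt ℝ (fderiv ℝ P) z :=
  ((h.fderiv_right (m := 1) (by norm_num)).differentiableAt (by norm_num))

/-- The chain rule. -/
theorem B2.compV {F : G → ℝ} {P : E → G} (hF : B2 F (P z) A B) (hP : V2 P z a b) :
    B2 (fun w => F (P w)) z (A * a) (B * a ^ 2 + A * b) := by
  have hA := hF.a0
  have hB := hF.b0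
  have ha := hP.a0
  have hb := hP.b0
  have hc : ContinuousAt P z := hP.sm.continuousAt
  have hP1 := ev_diffV hP.sm
  have hF1 := hc.eventually (ev_diff hF.sm)
  have key : ∀ v : E, ∀ {w : E}, DifferentiableAt ℝ F (P w) → DifferentiableAt ℝ P w →
      dv v (fun w => F (P w)) w = fderiv ℝ F (P w) (fderiv ℝ P w v) := by
    intro v w h1 h2
    unfold dv
    have := (h1.hasFDerivAt.comp w h2.hasFDerivAt).fderiv
    change fderiv ℝ (F ∘ P) w v = _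
    rw [this]
    rfl
  refine ⟨by positivity, by positivity, ContDiffAt.comp z hF.sm hP.sm, fun v => ?_,
    fun v w => ?_⟩
  · rw [key v hF1.self_of_nhds hP1.self_of_nhds]
    refine (hF.d1 _).trans ?_
    rw [mul_assoc]
    exact mul_le_mul_of_nonneg_left (hP.d1 v) hA
  · have e : dv v (fun w => F (P w)) =ᶠ[𝓝 z] fun w => fderiv ℝ F (P w) (fderiv ℝ P w v) := by
      filter_upwards [hP1, hF1] with w h1 h2 using key v h2 h1
    have hFF : DifferentiableAt ℝ (fderiv ℝ F) (P z) :=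
      (hF.sm.fderiv_right (m := 1) (by norm_num)).differentiableAt (by norm_num)
    have d1 : HasFDerivAt (fun w => fderiv ℝ F (P w))
        ((fderiv ℝ (fderiv ℝ F) (P z)).comp (fderiv ℝ P z)) z :=
      hFF.hasFDerivAt.comp z hP1.self_of_nhds.hasFDerivAt
    have hPd : DifferentiableAt ℝ (fun x => fderiv ℝ P x v) z :=
      (fd_diffV hP.sm).clm_apply (differentiableAt_const v)
    have e2 : fderiv ℝ (fun w => fderiv ℝ F (P w) (fderiv ℝ P w v)) z w =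
        fderiv ℝ F (P z) (fderiv ℝ (fun x => fderiv ℝ P x v) z w) +
        (fderiv ℝ (fderiv ℝ F) (P z) (fderiv ℝ P z w)) (fderiv ℝ P z v) := by
      rw [(d1.clm_apply hPd.hasFDerivAt).fderiv]
      simp
    have e3 : (fderiv ℝ (fderiv ℝ F) (P z) (fderiv ℝ P z w)) (fderiv ℝ P z v) =
        dv (fderiv ℝ P z w) (dv (fderiv ℝ P z v) F) (P z) := by
      unfold dv
      rw [fderiv_clm_apply hFF (differentiableAt_const _)]
      simp
    rw [(dv_congr w e).self_of_nhds]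
    change |fderiv ℝ (fun w => fderiv ℝ F (P w) (fderiv ℝ P w v)) z w| ≤ _
    rw [e2, e3]
    have k1 : |fderiv ℝ F (P z) (fderiv ℝ (fun x => fderiv ℝ P x v) z w)| ≤
        A * (b * (‖v‖ * ‖w‖)) := (hF.d1 _).trans (mul_le_mul_of_nonneg_left (hP.d2 v w) hA)
    have k2 : |dv (fderiv ℝ P z w) (dv (fderiv ℝ P z v) F) (P z)| ≤
        B * ((a * ‖v‖) * (a * ‖w‖)) :=
      (hF.d2 _ _).trans (mul_le_mul_of_nonneg_left
        (mul_le_mul (hP.d1 v) (hP.d1 w) (norm_nonneg _) (by positivity)) hB)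
    refine (abs_add_le _ _).trans ((add_le_add k1 k2).trans (le_of_eq ?_))
    ring

/-- From bounds of `iteratedFDeriv`. -/
theorem V2.of_it {P : E → G} (h : ContDiffAt ℝ 2 P z) (h1 : ‖iteratedFDeriv ℝ 1 P z‖ ≤ a)
    (h2 : ‖iteratedFDeriv ℝ 2 P z‖ ≤ b) : V2 P z a b := by
  refine ⟨(norm_nonneg _).trans h1, (norm_nonneg _).trans h2, h, fun v => ?_, fun v w => ?_⟩
  · have e : fderiv ℝ P z v = iteratedFDeriv ℝ 1 P z (fun _ => v) := by
      rw [iteratedFDeriv_one_apply]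
    rw [e]
    refine (ContinuousMultilinearMap.le_opNorm _ _).trans ?_
    rw [Fin.prod_univ_one]
    exact mul_le_mul_of_nonneg_right h1 (norm_nonneg _)
  · have e : fderiv ℝ (fun x => fderiv ℝ P x v) z w = iteratedFDeriv ℝ 2 P z ![w, v] := by
      rw [iteratedFDeriv_two_apply, fderiv_clm_apply (fd_diffV h) (differentiableAt_const v)]
      simp
    rw [e]
    refine (ContinuousMultilinearMap.le_opNorm _ _).trans ?_
    rw [Fin.prod_univ_two]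
    simp only [Matrix.cons_val_zero, Matrix.cons_val_one]
    rw [mul_comm ‖w‖ ‖v‖]
    exact mul_le_mul_of_nonneg_right h2 (by positivity)

/-- From bounds of `iteratedFDeriv`. -/
theorem B2.of_it {f : E → ℝ} (h : ContDiffAt ℝ 2 f z) (h1 : ‖iteratedFDeriv ℝ 1 f z‖ ≤ a)
    (h2 : ‖iteratedFDeriv ℝ 2 f z‖ ≤ b) : B2 f z a b := by
  have k := V2.of_it h h1 h2
  exact ⟨k.a0, k.b0, h, k.d1, k.d2⟩

/-- The map `(x, y) ↦ (P x, P y)`. -/
theorem V2.pair {P : E → E} {z : E × E} (h1 : V2 P z.1 a b) (h2 : V2 P z.2 a b) :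
    V2 (fun w : E × E => (P w.1, P w.2)) z a b := by
  have ha := h1.a0
  have hb := h1.b0
  have s1 : ContDiffAt ℝ 2 (fun w : E × E => P w.1) z := ContDiffAt.comp z h1.sm contDiffAt_fst
  have s2 : ContDiffAt ℝ 2 (fun w : E × E => P w.2) z := ContDiffAt.comp z h2.sm contDiffAt_snd
  have k1 : ∀ {w : E × E} (v : E × E), DifferentiableAt ℝ P w.1 → DifferentiableAt ℝ P w.2 →
      fderiv ℝ (fun w : E × E => (P w.1, P w.2)) w v = (fderiv ℝ P w.1 v.1, fderiv ℝ P w.2 v.2) := by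
    intro w v hw1 hw2
    have e := ((hw1.hasFDerivAt.comp w hasFDerivAt_fst).prodMk
      (hw2.hasFDerivAt.comp w hasFDerivAt_snd)).fderiv
    change fderiv ℝ (fun w : E × E => ((P ∘ Prod.fst) w, (P ∘ Prod.snd) w)) w v = _
    rw [e]
    rfl
  have hv : ∀ v : E × E, ‖v.1‖ ≤ ‖v‖ ∧ ‖v.2‖ ≤ ‖v‖ := fun v => ⟨norm_fst_le v, norm_snd_le v⟩
  refine ⟨ha, hb, s1.prodMk s2, fun v => ?_, fun v w => ?_⟩
  · rw [k1 v (ev_diffV h1.sm).self_of_nhds (ev_diffV h2.sm).self_of_nhds, Prod.norm_def]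
    refine max_le ?_ ?_
    · exact (h1.d1 v.1).trans (mul_le_mul_of_nonneg_left (hv v).1 ha)
    · exact (h2.d1 v.2).trans (mul_le_mul_of_nonneg_left (hv v).2 ha)
  · have e : (fun x : E × E => fderiv ℝ (fun w : E × E => (P w.1, P w.2)) x v) =ᶠ[𝓝 z]
        fun x => (fderiv ℝ P x.1 v.1, fderiv ℝ P x.2 v.2) := by
      filter_upwards [continuousAt_fst.eventually (ev_diffV h1.sm),
        continuousAt_snd.eventually (ev_diffV h2.sm)] with x hx1 hx2 using k1 v hx1 hx2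
    have m1 : DifferentiableAt ℝ (fun x => fderiv ℝ P x v.1) z.1 :=
      (fd_diffV h1.sm).clm_apply (differentiableAt_const _)
    have m2 : DifferentiableAt ℝ (fun x => fderiv ℝ P x v.2) z.2 :=
      (fd_diffV h2.sm).clm_apply (differentiableAt_const _)
    have e2 : fderiv ℝ (fun x : E × E => (fderiv ℝ P x.1 v.1, fderiv ℝ P x.2 v.2)) z w =
        (fderiv ℝ (fun x => fderiv ℝ P x v.1) z.1 w.1,
          fderiv ℝ (fun x => fderiv ℝ P x v.2) z.2 w.2) := by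
      have e3 := ((m1.hasFDerivAt.comp z hasFDerivAt_fst).prodMk
        (m2.hasFDerivAt.comp z hasFDerivAt_snd)).fderiv
      change fderiv ℝ (fun x : E × E => (((fun x => fderiv ℝ P x v.1) ∘ Prod.fst) x,
        ((fun x => fderiv ℝ P x v.2) ∘ Prod.snd) x)) z w = _
      rw [e3]
      rfl
    rw [e.fderiv_eq, e2, Prod.norm_def]
    refine max_le ?_ ?_
    · exact (h1.d2 v.1 w.1).trans (mul_le_mul_of_nonneg_left
        (mul_le_mul (hv v).1 (hv w).1 (norm_nonneg _) (norm_nonneg _)) hb)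
    · exact (h2.d2 v.2 w.2).trans (mul_le_mul_of_nonneg_left
        (mul_le_mul (hv v).2 (hv w).2 (norm_nonneg _) (norm_nonneg _)) hb)

end gen

/-! ## The weight -/

variable {n : ℕ}

theorem nrm_le_qf (z : VV n) : ‖z‖ ^ 2 ≤ qf z := by
  have h0 := H269.qf_nonneg z
  have h1 : ∀ x : V n, (∀ i, x i ^ 2 ≤ qf z) → ‖x‖ ≤ √(qf z) := by
    intro x hx
    refine (pi_norm_le_iff_of_nonneg (Real.sqrt_nonneg _)).2 fun i => ?_
    rw [Real.norm_eq_abs]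
    exact Real.abs_le_sqrt (hx i)
  have h2 : ‖z‖ ≤ √(qf z) := by
    rw [Prod.norm_def]
    exact max_le (h1 z.1 fun i => H269.co_sq_le (Sum.inl i) z)
      (h1 z.2 fun i => H269.co_sq_le (Sum.inr i) z)
  calc ‖z‖ ^ 2 ≤ √(qf z) ^ 2 := by gcongr
    _ = qf z := Real.sq_sqrt h0

/-- Weights of quadratic growth. -/
theorem wt_of {W : VV n → ℝ} (hW : ContDiff ℝ ∞ W) {C L : ℝ} (hC : 0 ≤ C)
    (h : ∀ z, B2 W z (C * (1 + ‖z‖)) (C * (1 + ‖z‖) ^ 2)) (lo : ∀ z, -L ≤ W z) :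
    ∃ B, 0 ≤ B ∧ Wt B W := by
  refine ⟨2 * C ^ 2 + 2 * C + |L|, by positivity, ?_⟩
  have hq : ∀ z : VV n, (1 + ‖z‖) ^ 2 ≤ 2 * (1 + qf z) := fun z => by
    nlinarith [nrm_le_qf z, sq_nonneg (1 - ‖z‖)]
  have h0 : ∀ z : VV n, 0 ≤ 1 + qf z := fun z => by linarith [H269.qf_nonneg z]
  have hL := abs_nonneg L
  have a1 : ∀ v : VV n, ‖v‖ ≤ 1 → ∀ z, (dv v W z) ^ 2 ≤ (2 * C ^ 2 + 2 * C + |L|) * (1 + qf z) := by
    intro v hv z
    have h1 : |dv v W z| ≤ C * (1 + ‖z‖) := ((h z).d1 v).trans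
      (mul_le_of_le_one_right (by positivity) hv)
    calc dv v W z ^ 2 = |dv v W z| ^ 2 := (sq_abs _).symm
      _ ≤ (C * (1 + ‖z‖)) ^ 2 := by gcongr
      _ = C ^ 2 * (1 + ‖z‖) ^ 2 := by ring
      _ ≤ C ^ 2 * (2 * (1 + qf z)) := by gcongr; exact hq z
      _ ≤ (2 * C ^ 2 + 2 * C + |L|) * (1 + qf z) := by
          have := h0 z
          nlinarith [mul_nonneg hC this, mul_nonneg hL this]
  have a2 : ∀ v w : VV n, ‖v‖ ≤ 1 → ‖w‖ ≤ 1 → ∀ z,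
      |dv w (dv v W) z| ≤ (2 * C ^ 2 + 2 * C + |L|) * (1 + qf z) := by
    intro v w hv hw z
    have h1 : |dv w (dv v W) z| ≤ C * (1 + ‖z‖) ^ 2 := ((h z).d2 v w).trans
      (mul_le_of_le_one_right (by positivity) (mul_le_one₀ hv (norm_nonneg _) hw))
    refine h1.trans ?_
    calc C * (1 + ‖z‖) ^ 2 ≤ C * (2 * (1 + qf z)) := by gcongr; exact hq z
      _ ≤ (2 * C ^ 2 + 2 * C + |L|) * (1 + qf z) := by
          have := h0 z
          nlinarith [mul_nonneg (sq_nonneg C) this, mul_nonneg hL this]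
  have u1 : ∀ i : Fin n, ‖((Pi.single i 1, 0) : VV n)‖ ≤ 1 := fun i => by
    rw [Prod.norm_def]
    simp [Pi.norm_single]
  have u2 : ∀ i : Fin n, ‖((0, Pi.single i 1) : VV n)‖ ≤ 1 := fun i => by
    rw [Prod.norm_def]
    simp [Pi.norm_single]
  refine ⟨hW, fun z => ?_, fun i z => a1 _ (u1 i) z, fun i z => a1 _ (u2 i) z,
    fun i j z => a2 _ _ (u1 j) (u1 i) z, fun i j z => a2 _ _ (u2 j) (u1 i) z,
    fun i j z => a2 _ _ (u2 j) (u2 i) z⟩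
  have := lo z
  have := le_abs_self L
  nlinarith [sq_nonneg C]

/-- **The weight of EST' is a weight of quadratic growth.** -/
theorem wt_WT {F : Fu} {rd : ℝ} (hF : F.Ok rd) {Θ : ℝ → ℝ} {P : V n → V n} {l : V n → ℝ}
    {g : MF n} (hg : ∀ i j, ContDiff ℝ ∞ (fun x => g x i j)) (hl : ContDiff ℝ ∞ l)
    (l1 : ∃ C, ∀ x, ‖iteratedFDeriv ℝ 1 l x‖ ≤ C * (1 + ‖x‖) ∧
      ‖iteratedFDeriv ℝ 2 l x‖ ≤ C * (1 + ‖x‖) ^ 2)
    (hP : ContDiff ℝ ∞ P)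
    (P1 : ∃ C, ∀ x, ‖P x‖ ≤ C ∧ ‖iteratedFDeriv ℝ 1 P x‖ ≤ C ∧ ‖iteratedFDeriv ℝ 2 P x‖ ≤ C)
    (hΘ : ContDiff ℝ ∞ Θ)
    (Θ1 : ∃ C, ∀ x, |deriv Θ (l x)| ≤ C ∧ |deriv (deriv Θ) (l x)| ≤ C ∧ -C ≤ Θ (l x))
    (R c : ℝ) : ∃ B, 0 ≤ B ∧ Wt B (fun z => WT F Θ P l g (R • z) - c) := by
  obtain ⟨C₁, hC₁⟩ := l1
  obtain ⟨C₂, hC₂⟩ := P1
  obtain ⟨C₃, hC₃⟩ := Θ1
  have p1 : 0 ≤ C₁ := by
    have := (norm_nonneg _).trans (hC₁ 0).1
    rw [norm_zero] at this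
    linarith
  have p2 : 0 ≤ C₂ := (norm_nonneg _).trans (hC₂ 0).1
  have p3 : 0 ≤ C₃ := (abs_nonneg _).trans (hC₃ 0).1
  have hWW := H31.EP.WW_smooth hF hl hg
  have hK : IsCompact (Metric.closedBall (0 : VV n) C₂) := isCompact_closedBall _ _
  obtain ⟨C₄, p4, hC₄⟩ := b2_compact hWW hK
  obtain ⟨C₅, hC₅⟩ := hK.exists_bound_of_continuousOn hWW.continuous.continuousOn
  have hPP : ∀ z : VV n, (P z.1, P z.2) ∈ Metric.closedBall (0 : VV n) C₂ := fun z => by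
    rw [mem_closedBall_zero_iff, Prod.norm_def]
    exact max_le (hC₂ z.1).1 (hC₂ z.2).1
  have hPd : ∀ x, V2 P x C₂ C₂ := fun x =>
    V2.of_it (hP.of_le two_le).contDiffAt (hC₂ x).2.1 (hC₂ x).2.2
  have hld : ∀ x, B2 l x (C₁ * (1 + ‖x‖)) (C₁ * (1 + ‖x‖) ^ 2) := fun x =>
    B2.of_it (hl.of_le two_le).contDiffAt (hC₁ x).1 (hC₁ x).2
  -- the first part
  have q1 : ∀ z : VV n, B2 (fun z : VV n => WW F l g (P z.1, P z.2)) z (C₄ * C₂)
      (C₄ * C₂ ^ 2 + C₄ * C₂) := fun z =>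
    B2.compV (P := fun z : VV n => (P z.1, P z.2)) (hC₄ _ (hPP z)) (V2.pair (hPd z.1) (hPd z.2))
  -- the second part
  have q2 : ∀ x, B2 (fun x => Θ (l x)) x (C₃ * (C₁ * (1 + ‖x‖)))
      (C₃ * (C₁ * (1 + ‖x‖)) ^ 2 + C₃ * (C₁ * (1 + ‖x‖) ^ 2)) := fun x =>
    (hld x).comp (hΘ.of_le two_le).contDiffAt (hC₃ x).1 (hC₃ x).2.1
  set D := C₃ * C₁ with hD
  set D' := C₃ * C₁ ^ 2 + C₃ * C₁ with hD'
  have hD0 : 0 ≤ D := by positivity
  have hD'0 : 0 ≤ D' := by positivity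
  have q3 : ∀ z : VV n, B2 (fun z : VV n => Θ (l z.1)) z (D * (1 + ‖z‖)) (D' * (1 + ‖z‖) ^ 2) := by
    intro z
    have h := B2.lin (z := z) (ContinuousLinearMap.fst ℝ (V n) (V n)) (q2 z.1)
    have hn : ‖ContinuousLinearMap.fst ℝ (V n) (V n)‖ ≤ 1 := ContinuousLinearMap.norm_fst_le _ _ _
    have hn0 := norm_nonneg (ContinuousLinearMap.fst ℝ (V n) (V n))
    have hz : ‖z.1‖ ≤ ‖z‖ := norm_fst_le z
    have hz0 := norm_nonneg z.1
    refine h.mono ?_ ?_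
    · calc C₃ * (C₁ * (1 + ‖z.1‖)) * ‖ContinuousLinearMap.fst ℝ (V n) (V n)‖
          ≤ C₃ * (C₁ * (1 + ‖z‖)) * 1 := by gcongr
        _ = D * (1 + ‖z‖) := by rw [hD]; ring
    · calc (C₃ * (C₁ * (1 + ‖z.1‖)) ^ 2 + C₃ * (C₁ * (1 + ‖z.1‖) ^ 2)) *
            ‖ContinuousLinearMap.fst ℝ (V n) (V n)‖ ^ 2
          ≤ (C₃ * (C₁ * (1 + ‖z‖)) ^ 2 + C₃ * (C₁ * (1 + ‖z‖) ^ 2)) * 1 ^ 2 := by gcongr
        _ = D' * (1 + ‖z‖) ^ 2 := by rw [hD']; ring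
  have q4 : ∀ z : VV n, B2 (fun z : VV n => Θ (l z.2)) z (D * (1 + ‖z‖)) (D' * (1 + ‖z‖) ^ 2) := by
    intro z
    have h := B2.lin (z := z) (ContinuousLinearMap.snd ℝ (V n) (V n)) (q2 z.2)
    have hn : ‖ContinuousLinearMap.snd ℝ (V n) (V n)‖ ≤ 1 := ContinuousLinearMap.norm_snd_le _ _ _
    have hn0 := norm_nonneg (ContinuousLinearMap.snd ℝ (V n) (V n))
    have hz : ‖z.2‖ ≤ ‖z‖ := norm_snd_le z
    have hz0 := norm_nonneg z.2
    refine h.mono ?_ ?_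
    · calc C₃ * (C₁ * (1 + ‖z.2‖)) * ‖ContinuousLinearMap.snd ℝ (V n) (V n)‖
          ≤ C₃ * (C₁ * (1 + ‖z‖)) * 1 := by gcongr
        _ = D * (1 + ‖z‖) := by rw [hD]; ring
    · calc (C₃ * (C₁ * (1 + ‖z.2‖)) ^ 2 + C₃ * (C₁ * (1 + ‖z.2‖) ^ 2)) *
            ‖ContinuousLinearMap.snd ℝ (V n) (V n)‖ ^ 2
          ≤ (C₃ * (C₁ * (1 + ‖z‖)) ^ 2 + C₃ * (C₁ * (1 + ‖z‖) ^ 2)) * 1 ^ 2 := by gcongr
        _ = D' * (1 + ‖z‖) ^ 2 := by rw [hD']; ring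
  -- all
  have q5 : ∀ z : VV n, B2 (WT F Θ P l g) z (C₄ * C₂ + (D * (1 + ‖z‖) + D * (1 + ‖z‖)))
      (C₄ * C₂ ^ 2 + C₄ * C₂ + (D' * (1 + ‖z‖) ^ 2 + D' * (1 + ‖z‖) ^ 2)) := fun z =>
    (q1 z).add ((q3 z).add (q4 z))
  have q6 : ∀ z : VV n, B2 (fun z => WT F Θ P l g (R • z) - c) z
      ((C₄ * C₂ + (D * (1 + ‖R • z‖) + D * (1 + ‖R • z‖))) * |R|)
      ((C₄ * C₂ ^ 2 + C₄ * C₂ + (D' * (1 + ‖R • z‖) ^ 2 + D' * (1 + ‖R • z‖) ^ 2)) * |R| ^ 2) := by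
    intro z
    have h := B2.lin (z := z) (R • ContinuousLinearMap.id ℝ (VV n)) (q5 (R • z))
    have hn : ‖R • ContinuousLinearMap.id ℝ (VV n)‖ ≤ |R| := by
      rw [norm_smul, Real.norm_eq_abs]
      exact mul_le_of_le_one_right (abs_nonneg _) ContinuousLinearMap.norm_id_le
    have hn2 : ‖R • ContinuousLinearMap.id ℝ (VV n)‖ ^ 2 ≤ |R| ^ 2 := by gcongr
    have h2 := (h.mono (mul_le_mul_of_nonneg_left hn (by positivity))
      (mul_le_mul_of_nonneg_left hn2 (by positivity))).add (B2.const (z := z) (-c))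
    refine B2.congr (h2.mono (le_of_eq (add_zero _)) (le_of_eq (add_zero _))) ?_
    exact Eventually.of_forall fun w => rfl
  set T := (C₄ * C₂ + C₄ * C₂ ^ 2 + 2 * D + 2 * D') * (1 + |R|) ^ 4 with hT
  have hT0 : 0 ≤ T := by positivity
  have hR1 : (1 : ℝ) ≤ 1 + |R| := by linarith [abs_nonneg R]
  have hb : ∀ z : VV n, 1 + ‖R • z‖ ≤ (1 + |R|) * (1 + ‖z‖) := fun z => by
    rw [norm_smul, Real.norm_eq_abs]
    nlinarith [abs_nonneg R, norm_nonneg z]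
  have hsm : ContDiff ℝ ∞ (fun z => WT F Θ P l g (R • z) - c) :=
    ((H31.EP.WT_smooth hF hΘ hP hl hg).comp (contDiff_const_smul R)).sub contDiff_const
  refine wt_of hsm (C := T) (L := |c| + C₅ + 2 * C₃) hT0 (fun z => (q6 z).mono ?_ ?_) fun z => ?_
  · have h1 := hb z
    have h0 : 0 ≤ 1 + ‖R • z‖ := by positivity
    have hz := norm_nonneg z
    have hR := abs_nonneg R
    have e1 : (1 : ℝ) ≤ (1 + |R|) * (1 + ‖z‖) := by nlinarith
    have hpow : (1 + |R|) * (1 + |R|) ≤ (1 + |R|) ^ 4 := by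
      nlinarith [sq_nonneg (1 + |R|), mul_nonneg hR hR, pow_le_pow_right₀ hR1 (show 2 ≤ 4 by norm_num)]
    calc (C₄ * C₂ + (D * (1 + ‖R • z‖) + D * (1 + ‖R • z‖))) * |R|
        ≤ (C₄ * C₂ * ((1 + |R|) * (1 + ‖z‖)) + (D * ((1 + |R|) * (1 + ‖z‖)) +
          D * ((1 + |R|) * (1 + ‖z‖)))) * (1 + |R|) := by
          have f1 : C₄ * C₂ ≤ C₄ * C₂ * ((1 + |R|) * (1 + ‖z‖)) :=
            le_mul_of_one_le_right (by positivity) e1
          have f2 : D * (1 + ‖R • z‖) ≤ D * ((1 + |R|) * (1 + ‖z‖)) :=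
            mul_le_mul_of_nonneg_left h1 hD0
          exact mul_le_mul (add_le_add f1 (add_le_add f2 f2)) (by linarith) hR (by positivity)
      _ = (C₄ * C₂ + 2 * D) * ((1 + |R|) * (1 + |R|)) * (1 + ‖z‖) := by ring
      _ ≤ (C₄ * C₂ + C₄ * C₂ ^ 2 + 2 * D + 2 * D') * (1 + |R|) ^ 4 * (1 + ‖z‖) := by
          have e3 : C₄ * C₂ + 2 * D ≤ C₄ * C₂ + C₄ * C₂ ^ 2 + 2 * D + 2 * D' := by
            have : 0 ≤ C₄ * C₂ ^ 2 := by positivity
            linarith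
          gcongr
      _ = T * (1 + ‖z‖) := by rw [hT]
  · have h1 := hb z
    have h0 : 0 ≤ 1 + ‖R • z‖ := by positivity
    have hz := norm_nonneg z
    have hR := abs_nonneg R
    have e1 : (1 : ℝ) ≤ ((1 + |R|) * (1 + ‖z‖)) ^ 2 := by
      have : (1 : ℝ) ≤ (1 + |R|) * (1 + ‖z‖) := by nlinarith
      nlinarith
    have e2 : (1 + ‖R • z‖) ^ 2 ≤ ((1 + |R|) * (1 + ‖z‖)) ^ 2 := by gcongr
    have e4 : |R| ^ 2 ≤ (1 + |R|) ^ 2 := by gcongr; linarith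
    calc (C₄ * C₂ ^ 2 + C₄ * C₂ + (D' * (1 + ‖R • z‖) ^ 2 + D' * (1 + ‖R • z‖) ^ 2)) * |R| ^ 2
        ≤ ((C₄ * C₂ ^ 2 + C₄ * C₂) * ((1 + |R|) * (1 + ‖z‖)) ^ 2 +
          (D' * ((1 + |R|) * (1 + ‖z‖)) ^ 2 + D' * ((1 + |R|) * (1 + ‖z‖)) ^ 2)) *
          (1 + |R|) ^ 2 := by
          have f1 : C₄ * C₂ ^ 2 + C₄ * C₂ ≤
              (C₄ * C₂ ^ 2 + C₄ * C₂) * ((1 + |R|) * (1 + ‖z‖)) ^ 2 :=
            le_mul_of_one_le_right (by positivity) e1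
          have f2 : D' * (1 + ‖R • z‖) ^ 2 ≤ D' * ((1 + |R|) * (1 + ‖z‖)) ^ 2 :=
            mul_le_mul_of_nonneg_left e2 hD'0
          exact mul_le_mul (add_le_add f1 (add_le_add f2 f2)) e4 (by positivity) (by positivity)
      _ = (C₄ * C₂ ^ 2 + C₄ * C₂ + 2 * D') * (1 + |R|) ^ 4 * (1 + ‖z‖) ^ 2 := by ring
      _ ≤ (C₄ * C₂ + C₄ * C₂ ^ 2 + 2 * D + 2 * D') * (1 + |R|) ^ 4 * (1 + ‖z‖) ^ 2 := by
          have e3 : C₄ * C₂ ^ 2 + C₄ * C₂ + 2 * D' ≤ C₄ * C₂ + C₄ * C₂ ^ 2 + 2 * D + 2 * D' := by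
            linarith
          gcongr
      _ = T * (1 + ‖z‖) ^ 2 := by rw [hT]
  · have h1 := hC₅ _ (hPP (R • z))
    rw [Real.norm_eq_abs, abs_le] at h1
    have h2 := (hC₃ (R • z).1).2.2
    have h3 := (hC₃ (R • z).2).2.2
    have h4 := le_abs_self c
    have h5 := h1.1
    unfold WT
    linarith

end Vale.Agent.P088.R2.H850.E
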