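import Vale.Agent.P088.R2.H606.EP.Wok

/-!
# P088, stage 3, zone II: the gradients are at least `c E r` (`W1` on the package)
-/

open Set Filter
open scoped ContDiff Topology Matrix

noncomputable section

namespace Vale.Agent.P088.R2.H850.E

open Vale.Agent.P088.LR Vale.Agent.P088.R2.H464.Cu Vale.Agent.P088.R2.H31.EP
open Vale.Agent.P088.HY hiding Bn
open Vale.Agent.P088.R2.H606.EP
open Vale.Agent.P088.R2.H606.Z (D2 FS Wg Pt c00 cF cF_pos c00_pos c00_mul Wg_F w1_of c1W)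
open Vale.Agent.P088.R2.H961.GW (df_of sm_pd Sm)

variable {n : ℕ} {q : Cst} {d : Pk n} {z : VV n} {a X : ℝ}

theorem D2.mono {U : Set (VV n)} {A A' : ℝ} {u : VV n → ℝ} (h : D2 U A u) (hA : A ≤ A') :
    D2 U A' u where
  op := h.op
  sm := h.sm
  d1 z hz w := (h.d1 z hz w).trans (mul_le_mul_of_nonneg_right hA (norm_nonneg _))
  d2 z hz w w' := (h.d2 z hz w w').trans (mul_le_mul_of_nonneg_right hA (by positivity))

/-- The functions of the weight. -/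
theorem fs_ok (h : PkOk q d) (he : 0 < q.e₁) :
    FS d.Φ (deriv d.Φ) (deriv (deriv d.Φ)) (prS q.e₁) (prS₁ q.e₁) (prS₂ q.e₁) where
  p1 _ := (h.Φs.differentiable (by simp) _).hasDerivAt
  p2 _ := (h.Φ's.differentiable (by simp) _).hasDerivAt
  s1 := prS_d1 he
  s2 := prS_d2 he

/-- The numbers at the point. -/
theorem pt_ok (h : PkOk q d) (m : Zn n a X q) (A : Al a X q d z) (ha : a ≤ 1 / 8) :
    Pt (Bn n) a (deriv d.Φ) (deriv (deriv d.Φ)) (prS q.e₁) (prS₁ q.e₁) (prS₂ q.e₁) (d.u q)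
      (gi d.s₁) √(d.r2 z) z := by
  obtain ⟨B1, B2, B3, B4, B5⟩ := Bn_ge n
  obtain ⟨r0, r1, r2, hN, hN0⟩ := al_num h m A
  have ap := m.ap
  have hE : 0 < d.E q z := Real.exp_pos _
  have er : 2 * rq (gi d.s₁) z = √(d.r2 z) ^ 2 := r2.symm
  have r4 : √(d.r2 z) ^ 2 < 1 := by nlinarith
  have pn := pn_ok m.eg0 (sq_nonneg √(d.r2 z)) r4
  have h0 := sq_nonneg √(d.r2 z)
  refine ⟨r0, by linarith, er, ?_, ?_, ?_, ?_, ?_⟩
  · rw [er, abs_of_nonneg (by linarith [pn.lo])]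
    refine pn.hi.trans ?_
    exact mul_le_mul_of_nonneg_right (by linarith) h0
  · rw [er, abs_of_nonneg (by linarith [pn.l1])]
    have h1 := pn.h1
    have h2 : 16 * √(d.r2 z) ^ 2 ≤ Bn n * √(d.r2 z) ^ 2 :=
      mul_le_mul_of_nonneg_right (by linarith) h0
    linarith
  · rw [er, abs_of_nonneg pn.l2]
    linarith [pn.h2]
  · have e : |deriv d.Φ (d.u q z)| = d.N q z := abs_of_pos hN0
    rw [e]
    exact hN
  · have K0 := K_pos h (d.u q z)
    have K1 := K_le h m.toNm A.ta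
    rw [abs_of_pos K0]
    have e2 : deriv (deriv d.Φ) (d.u q z) ≤ 41 / 20 * d.N q z := K1
    have e3 : d.E q z * √(d.r2 z) ≤ d.E q z * (1 / 8) :=
      mul_le_mul_of_nonneg_left (by linarith) hE.le
    have e4 : a * (d.E q z * √(d.r2 z)) ≤ 1 / 8 * (d.E q z * (1 / 8)) :=
      mul_le_mul ha e3 (by positivity) (by norm_num)
    show deriv (deriv d.Φ) (d.u q z) ≤ d.E q z
    linarith

/-- **The gradients.** -/
theorem f2_pt (h : PkOk q d) (m : Zn n a X q) (A : Al a X q d z) (ha : a ≤ 1 / 8)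
    (hac : a ≤ c00 n (Bn n)) :
    cF n * (d.E q z * d.m q z) ≤ d.sx.F (d.W q) z ∧
      cF n * (d.E q z * d.m q z) ≤ d.sy.F (d.W q) z := by
  obtain ⟨B1, B2, B3, B4, B5⟩ := Bn_ge n
  obtain ⟨r0, r1, r2, hN, hN0⟩ := al_num h m A
  have hn : 0 < n := m.n1
  have P := pt_ok h m A ha
  have f := fs_ok h m.eg0
  have L := A.lo
  have u2 := D2.mono (d2_u h m.toLm L) B4
  obtain ⟨n1, n2, ng⟩ := ten h m.toLm univ isOpen_univ
  obtain ⟨eT1, eT2⟩ := eT_le h m.toLm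
  have hR : 0 < q.R := by linarith [m.R1]
  have hc := cT_ge n
  have eT0 : 0 ≤ cT n * q.ε := mul_nonneg (by linarith) m.ε0
  have hRi : q.R⁻¹ ≤ 1 := inv_le_one_of_one_le₀ m.R1
  have hRi0 : 0 ≤ q.R⁻¹ := inv_nonneg.2 hR.le
  have dT : cT n * q.ε * q.R⁻¹ ≤ 1 := by
    have := mul_le_mul eT2 hRi hRi0 (by norm_num)
    linarith
  have eW : d.W q =ᶠ[𝓝 z] Wg d.Φ (prS q.e₁) (d.u q) (gi d.s₁) :=
    L.eW.eventuallyEq_of_mem (L.uo.mem_nhds L.uz)
  have e0 : cF n * (d.E q z * d.m q z) = cF n * (Real.exp (d.u q z) * √(d.r2 z)) ^ 2 := by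
    rw [mul_pow, r2]
    unfold Pk.m Pk.E
    ring
  have F1 := (Wg_F P hn f u2 L.uz isOpen_univ ng (by linarith) dT (mem_univ _) (by linarith)
    hac (r1.trans hac) n1 (by linarith)).1 (mem_univ _)
  have F2 := (Wg_F P hn f u2 L.uz isOpen_univ ng (by linarith) dT (mem_univ _) (by linarith)
    hac (r1.trans hac) n2 (by linarith)).2 (mem_univ _)
  have ex : d.sx.F (d.W q) z = (sx d.s₁).F (Wg d.Φ (prS q.e₁) (d.u q) (gi d.s₁)) z := by
    show (sx d.s₁).F (d.W q) z = _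
    rw [H606.Z.slx_F, H606.Z.slx_F, eW.fderiv_eq]
  have ey : d.sy.F (d.W q) z = (sy d.s₂).F (Wg d.Φ (prS q.e₁) (d.u q) (gi d.s₁)) z := by
    show (sy d.s₂).F (d.W q) z = _
    rw [H606.Z.sly_F, H606.Z.sly_F, eW.fderiv_eq]
  rw [e0, ex, ey]
  exact ⟨F1, F2⟩

/-- **The gradients in zone II**, EvC form. -/
theorem f2_ev (hn : 1 ≤ n) : EvC fun q => ∀ d : Pk n, PkOk q d → ∀ z, Z2 q d z →
    cF n * (d.E q z * d.m q z) ≤ d.sx.F (d.W q) z ∧
      cF n * (d.E q z * d.m q z) ≤ d.sy.F (d.W q) z := by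
  obtain ⟨B1, -⟩ := Bn_ge n
  have h0 : 0 < c00 n (Bn n) := c00_pos hn (by linarith)
  refine (evZn hn (a := min (1 / 8) (c00 n (Bn n))) (lt_min (by norm_num) h0) (fun _ => 1)
    (fun _ => rfl) fun _ => le_rfl).mono fun q m d h z hz => ?_
  exact f2_pt h m (al h m hz) (min_le_left _ _) (min_le_right _ _)

/-- The same with the constant on the other side. -/
theorem f2A_ev (hn : 1 ≤ n) : EvC fun q => ∀ d : Pk n, PkOk q d → ∀ z, Z2 q d z →
    d.E q z * d.m q z ≤ 1024 * (n : ℝ) ^ 2 * d.sx.F (d.W q) z ∧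
      d.E q z * d.m q z ≤ 1024 * (n : ℝ) ^ 2 * d.sy.F (d.W q) z := by
  refine (f2_ev hn).mono fun q m d h z hz => ?_
  obtain ⟨h1, h2⟩ := m d h z hz
  have hn0 : (0 : ℝ) < n := by exact_mod_cast hn
  have e : d.E q z * d.m q z = 1024 * (n : ℝ) ^ 2 * (cF n * (d.E q z * d.m q z)) := by
    unfold cF; field_simp
  rw [e]
  exact ⟨mul_le_mul_of_nonneg_left h1 (by positivity), mul_le_mul_of_nonneg_left h2 (by positivity)⟩

end Vale.Agent.P088.R2.H850.E
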