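import Vale.Agent.P088.R2.H972.EP.Ms
import Vale.Agent.P088.R2.H972.EP.Num
import Vale.Agent.P088.R2.H867.Z.Ho4
import Vale.Agent.P088.R2.H294.E.A1
import Vale.Agent.P088.R2.H850.E.F2

/-!
# P088, stage 3, EST': the payments of the cost of the core `zB` (all zones)
-/

open Set Filter
open scoped ContDiff Topology

noncomputable section

namespace Vale.Agent.P088.R2.H850.E

open Vale.Agent.P088.LR Vale.Agent.P088.R2.H464.Cu Vale.Agent.P088.R2.H31.EP
open Vale.Agent.P088.HY (VV)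
open Vale.Agent.P088.R2.H606.EP
open Vale.Agent.P088.R2.H455.E
open Vale.Agent.P088.R2.H165.Tab
open Vale.Agent.P088.R2.H867.Z (GB BC evBC ZB_off St_nn St_le)
open Vale.Agent.P088.R2.H867.EP (Zo)
open Vale.Agent.P088.R2.H972.EP (NkN evNkN)
open Vale.Agent.P088.R2.H972.E (N0 NN Mb mb_MI0 mb_MB mb_MII cc_B0 wB_wI wB_wk TL_nn)
open Vale.Agent.P088.R2.H932.EP (cN)

variable {n : ℕ} {q : Cst} {d : Pk n} {z : VV n} {L : Lc n} {K : Cst → ℝ}

/-- **Row K1**: the convexity weight of zone II. -/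
def RowK1 (L : Lc n) : Prop := EvC fun q => ∀ d : Pk n, PkOk q d → ∀ z, Z2 q d z →
  1 + d.N q z ^ 2 / d.m q z ^ 2 ≤ L.kz q d z

/-! ## The sizes of the letters -/

/-- The bound of the letters. -/
def xB (n : ℕ) (q : Cst) : ℝ :=
  cN n q * q.ηc + (3 * Real.exp (3 / 2 / q.ηc + 1 - 81 / 250 * Real.log q.M₀) + q.M₀⁻¹)

theorem T2_pos (h : d.T2B q z ≠ 0) : d.u q z < 13 / 5 * Real.log (d.N q z) + 11 / 10 := by
  have h1 : d.cv q .eB z < 3 / 2 := by
    by_contra hc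
    refine h ?_
    have h2 : H867.Z.St (-4 * d.cv q .eB z + 6) = 0 :=
      Real.smoothTransition.zero_of_nonpos (by linarith)
    unfold Pk.T2B H867.Z.TT2
    rw [h2]
    simp
  have e : d.cv q .eB z = (d.u q z - 13 / 5 * Real.log (d.N q z) - 0) / Real.log 2 := rfl
  have l2 := Real.log_two_gt_d9
  have l3 := Real.log_two_lt_d9
  rw [e, div_lt_iff₀ (by linarith)] at h1
  linarith

/-- The ratio on the layer of `eB`. -/
theorem T2_ratio (hq : BC n q) (h : PkOk q d) (hz : GB d q z) (h2 : d.T2B q z ≠ 0) :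
    (1 + d.m q z) / (d.N q z + 1 + d.m q z) ≤
      3 * Real.exp (3 / 2 / q.ηc + 1 - 81 / 250 * Real.log q.M₀) := by
  have hu := T2_pos h2
  have m0 := hq.m0 h z
  have hη := hq.nr.η0
  have h3 := hq.m_le h hz
  have h4 := hq.M1le (d := d) (d.u q z)
  have M1 := hq.nr.M1
  have hM : 0 < q.M₀ := by linarith
  have hN0 := h.N_ge (d.u q z)
  have hN : 0 < d.N q z := lt_of_lt_of_le hM hN0
  have l1 : Real.log q.M₀ ≤ Real.log (d.N q z) := Real.log_le_log hM hN0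
  have hu0 := hq.u60 h hz
  have e1 : 1 ≤ Real.exp (3 / 2 / q.ηc) := Real.one_le_exp (by positivity)
  have e2 : 1 ≤ Real.exp (26 / 100 * d.u q z) := Real.one_le_exp (by linarith)
  have e3 : 1 + d.m q z ≤ 3 * (Real.exp (3 / 2 / q.ηc) * Real.exp (26 / 100 * d.u q z)) := by
    have k1 : 1 ≤ Real.exp (3 / 2 / q.ηc) * Real.exp (26 / 100 * d.u q z) := one_le_mul_of_one_le_of_one_le e1 e2
    have k2 : 2 * Real.exp (3 / 2 / q.ηc) * d.m₁ q (d.u q z) ≤
        2 * Real.exp (3 / 2 / q.ηc) * Real.exp (26 / 100 * d.u q z) :=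
      mul_le_mul_of_nonneg_left h4 (by positivity)
    linarith
  calc (1 + d.m q z) / (d.N q z + 1 + d.m q z) ≤ (1 + d.m q z) / d.N q z :=
        div_le_div_of_nonneg_left (by linarith) hN (by linarith)
    _ ≤ 3 * (Real.exp (3 / 2 / q.ηc) * Real.exp (26 / 100 * d.u q z)) / d.N q z :=
        div_le_div_of_nonneg_right e3 hN.le
    _ = 3 * Real.exp (3 / 2 / q.ηc + 26 / 100 * d.u q z - Real.log (d.N q z)) := by
        rw [Real.exp_sub, Real.exp_add, Real.exp_log hN]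
        ring
    _ ≤ _ := by
        refine mul_le_mul_of_nonneg_left (Real.exp_le_exp.2 ?_) (by norm_num)
        linarith

/-- **The sizes of the letters of the core.** -/
theorem ZB_le (hq : BC n q) (h : PkOk q d) {K : ℝ} (hK : 0 ≤ K) :
    0 ≤ d.ZB q K z ∧ d.ZB q K z ≤ K * xB n q ∧ d.ZB' q K z ≤ K * xB n q := by
  have M1 := hq.nr.M1
  have hM : 0 < q.M₀ := by linarith
  have hη := hq.nr.η0
  have c1 := hq.cN1
  have α0 : 0 ≤ q.αB n := by unfold Cst.αB; positivity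
  have α1 : q.αB n ≤ 1 := hq.aη
  have x0 : q.αB n ≤ xB n q := by
    unfold xB Cst.αB
    have := Real.exp_pos (3 / 2 / q.ηc + 1 - 81 / 250 * Real.log q.M₀)
    have : 0 < q.M₀⁻¹ := by positivity
    linarith
  have x1 : 0 ≤ xB n q := α0.trans x0
  by_cases hz : GB d q z
  · have m0 := hq.m0 h z
    obtain ⟨N1, N2, E1, -⟩ := hq.num h hz
    have hN0 := h.N_ge (d.u q z)
    have hN0' : q.M₀ ≤ d.N q z := hN0
    have hE : 0 < d.E q z := Real.exp_pos _
    have t1 := d.T1B_01 q z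
    have t2 := d.T2B_01 q z
    have hr0 : 0 ≤ (1 + d.m q z) / (d.N q z + 1 + d.m q z) := by positivity
    have hr : d.T2B q z * ((1 + d.m q z) / (d.N q z + 1 + d.m q z)) ≤
        3 * Real.exp (3 / 2 / q.ηc + 1 - 81 / 250 * Real.log q.M₀) := by
      by_cases h2 : d.T2B q z = 0
      · rw [h2, zero_mul]; positivity
      · refine le_trans ?_ (T2_ratio hq h hz h2)
        exact mul_le_of_le_one_left hr0 t2.2
    have hEi : d.T2B q z / d.E q z ≤ q.M₀⁻¹ := by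
      rw [div_le_iff₀ hE]
      have k1 : q.M₀ ≤ d.E q z := by nlinarith
      have k2 : 1 ≤ q.M₀⁻¹ * d.E q z := by
        rw [← div_eq_inv_mul, le_div_iff₀ hM]
        linarith
      linarith
    have hM1 : 0 < q.M₀⁻¹ := by positivity
    have hex := Real.exp_pos (3 / 2 / q.ηc + 1 - 81 / 250 * Real.log q.M₀)
    rw [d.ZB_eq, d.ZB'_eq]
    refine ⟨?_, mul_le_mul_of_nonneg_left ?_ hK, mul_le_mul_of_nonneg_left ?_ hK⟩
    · have := t1.1
      have := t2.1
      positivity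
    · have k1 : q.αB n * d.T1B q z ≤ q.αB n := mul_le_of_le_one_right α0 t1.2
      unfold xB
      have : cN n q * q.ηc = q.αB n := rfl
      rw [this]
      linarith
    · have k1 : q.αB n ^ 2 * d.T1B q z / (1 + d.m q z) ^ 2 ≤ q.αB n := by
        rw [div_le_iff₀ (by positivity)]
        have k2 : q.αB n ^ 2 ≤ q.αB n := by nlinarith
        have k3 : 1 ≤ (1 + d.m q z) ^ 2 := one_le_pow₀ (by linarith)
        have k4 : q.αB n ^ 2 * d.T1B q z ≤ q.αB n ^ 2 := mul_le_of_le_one_right (sq_nonneg _) t1.2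
        nlinarith
      unfold xB
      have : cN n q * q.ηc = q.αB n := rfl
      rw [this]
      linarith
  · obtain ⟨h1, h2⟩ := ZB_off K hz
    rw [h1, h2]
    exact ⟨le_rfl, by positivity, by positivity⟩

/-! ## The constants -/

theorem nb_M {f : Cst → ℝ} (h : NB_ηc f) : NB_M₀ f := fun q => by
  have h1 := h q.b_M₀
  have h2 := h q
  rw [← h1, ← h2]
  rfl

/-- The parameter of the payments. -/
def pB (n : ℕ) (L : Lc n) (q : Cst) : ℝ :=
  min (L.cB q / 34) (min (L.cI q / 34 / 98) (1 / 544 / (8 * (1024 * ((n : ℝ) + 1) ^ 2))))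

theorem pB_pos (hL : L.Ok) (q : Cst) : 0 < pB n L q := by
  have h1 := hL.cB.1 q
  have h2 := hL.cI.1 q
  unfold pB
  refine lt_min (by positivity) (lt_min (by positivity) (by positivity))

theorem pB_nb (hL : L.Ok) : NB_ηc (pB n L) := fun q => by
  have h1 := hL.cB.2 q
  have h2 := hL.cI.2 q.b_ηc
  have h3 := hL.cI.2 q
  have h4 : L.cI q.b_ηc = L.cI q := by
    rw [← h2, ← h3]
    rfl
  unfold pB
  rw [h1, h4]

/-- **The sizes.** -/
theorem ev_xB (hL : L.Ok) (hK : NB_ηc K) (K0 : ∀ q, 0 < K q) :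
    EvC fun q => L.CB q * (K q * xB n q) ≤ pB n L q := by
  have h1 : EvC fun q => L.CB q * (K q * (cN n q * q.ηc)) ≤ pB n L q / 2 := by
    have := EvC.at_ηc (fun q t => L.CB q * (K q * (cN n q * t)) ≤ pB n L q / 2) fun q => by
      have p := pB_pos hL q
      have c := hL.CB.1 q
      have k := K0 q
      have hc : 0 ≤ L.CB q * K q * |cN n q| := by positivity
      filter_upwards [sml_le (a := pB n L q / 2 / (L.CB q * K q * |cN n q| + 1)) (by positivity),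
        sml_pos] with t ht h0
      rw [le_div_iff₀ (by positivity)] at ht
      have k1 : L.CB q * (K q * (cN n q * t)) ≤ t * (L.CB q * K q * |cN n q|) := by
        have := mul_le_mul_of_nonneg_left (le_abs_self (cN n q))
          (by positivity : 0 ≤ L.CB q * K q * t)
        linarith
      nlinarith
    refine this.mono fun q h => ?_
    have e1 := hL.CB.2 q
    have e2 := hK q
    have e3 := H932.EP.cN_nb' n q
    have e4 := pB_nb hL q
    rwa [e1, e2, e3, e4] at h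
  have h2 : EvC fun q => L.CB q * (K q *
      (3 * Real.exp (3 / 2 / q.ηc + 1 - 81 / 250 * Real.log q.M₀) + q.M₀⁻¹)) ≤ pB n L q / 2 := by
    have := EvC.at_M₀ (fun q t => L.CB q * (K q *
      (3 * Real.exp (3 / 2 / q.ηc + 1 - 81 / 250 * Real.log t) + t⁻¹)) ≤ pB n L q / 2) fun q => by
      have p := pB_pos hL q
      have a1 : Tendsto (fun t : ℝ => Real.exp (3 / 2 / q.ηc + 1 - 81 / 250 * Real.log t)) atTop
          (𝓝 0) := by
        refine Real.tendsto_exp_atBot.comp ?_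
        refine tendsto_atBot_add_const_left _ _ ?_
        exact tendsto_neg_atTop_atBot.comp
          (Real.tendsto_log_atTop.const_mul_atTop (by norm_num : (0 : ℝ) < 81 / 250))
      have a2 : Tendsto (fun t : ℝ => t⁻¹) atTop (𝓝 0) := tendsto_inv_atTop_zero
      have a3 := (((a1.const_mul 3).add a2).const_mul (K q)).const_mul (L.CB q)
      simp only [mul_zero, add_zero] at a3
      exact (a3.eventually (gt_mem_nhds (by positivity : (0 : ℝ) < pB n L q / 2))).mono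
        fun t ht => ht.le
    refine this.mono fun q h => ?_
    have e1 := nb_M hL.CB.2 q
    have e2 := nb_M hK q
    have e4 := nb_M (pB_nb hL) q
    rw [e1, e2, e4] at h
    exact h
  refine (h1.and h2).mono fun q h => ?_
  obtain ⟨h1, h2⟩ := h
  unfold xB
  linarith

/-! ## The payments -/

/-- The numbers. -/
structure QB (n : ℕ) (L : Lc n) (K : Cst → ℝ) (q : Cst) : Prop where
  bc : BC n q
  zn : Zn n 1 1 q
  x : L.CB q * (K q * xB n q) ≤ pB n L q
  ε : (n : ℝ) * q.ε ≤ 1 / 2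
  cK : q.cK ≤ 1
  cK0 : 0 < q.cK
  k1 : ∀ d : Pk n, PkOk q d → ∀ z, Z2 q d z → 1 + d.N q z ^ 2 / d.m q z ^ 2 ≤ L.kz q d z
  f : ∀ d : Pk n, PkOk q d → ∀ z, Z2 q d z →
    d.E q z * d.m q z ≤ 1024 * (n : ℝ) ^ 2 * d.sx.F (d.W q) z ∧
      d.E q z * d.m q z ≤ 1024 * (n : ℝ) ^ 2 * d.sy.F (d.W q) z
  nk : ∀ d : Pk n, PkOk q d → ∀ k, H972.EP.Nz k → ∀ z, d.ch q k z ≠ 0 → NkN q d k z

theorem evQB (hn : 1 ≤ n) (hL : L.Ok) (hK : NB_ηc K) (K0 : ∀ q, 0 < K q) (hk : RowK1 L) :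
    EvC (QB n L K) := by
  have c1 : EvC fun q => q.cK ≤ 1 := EvC.at_cK (fun _ t => t ≤ 1) fun _ => sml_le one_pos
  have hε : EvC fun q => (n : ℝ) * q.ε ≤ 1 / 2 := by
    refine EvC.at_ε (fun _ t => (n : ℝ) * t ≤ 1 / 2) fun _ => ?_
    have hn0 : (0 : ℝ) < n := by exact_mod_cast hn
    refine (sml_le (a := 1 / (2 * n)) (by positivity)).mono fun t ht => ?_
    rw [le_div_iff₀ (by positivity)] at ht
    linarith
  refine ((((evBC n).and (evZn hn (a := 1) one_pos (fun _ => 1) (fun _ => rfl)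
    fun _ => le_rfl)).and ((ev_xB hL hK K0).and (hε.and c1))).and ((hk.and (f2A_ev hn)).and
    (evNkN n))).mono ?_
  rintro q ⟨⟨⟨b, zn⟩, x, ε, c1⟩, ⟨k1, f⟩, nk⟩
  exact ⟨b, zn, x, ε, c1, zn.k0, k1, f, nk⟩

theorem n0_B (hq : QB n L K q) (h : PkOk q d) (z : VV n) : N0 (nu L.kz q d) z where
  En := Real.exp_pos _
  m := hq.bc.m0 h z
  F₁ := by
    refine le_trans ?_ (H294.E.F_x h hq.ε (d.W q) z)
    exact mul_nonneg (by norm_num) (Finset.sum_nonneg fun _ _ => sq_nonneg _)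
  F₂ := by
    refine le_trans ?_ (H294.E.F_y h hq.ε (d.W q) z)
    exact mul_nonneg (by norm_num) (Finset.sum_nonneg fun _ _ => sq_nonneg _)

theorem coB_eq (hZ : L.ZB = fun q d => d.ZB q (K q)) (hZ' : L.ZB' = fun q d => d.ZB' q (K q))
    (e : Cst → ℝ) : coz L e q d .zB =
      cB (nu L.kz q d) (L.CB q) (d.ZB q (K q)) (d.ZB' q (K q)) := by
  show cB (nu L.kz q d) (L.CB q) (L.ZB q d) (L.ZB' q d) = _
  rw [hZ, hZ']

theorem s_B (hL : L.Ok) (K0 : ∀ q, 0 < K q) (hq : QB n L K q) (h : PkOk q d) :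
    0 ≤ L.CB q * d.ZB q (K q) z ∧ L.CB q * d.ZB q (K q) z ≤ pB n L q ∧
      L.CB q * d.ZB' q (K q) z ≤ pB n L q := by
  obtain ⟨z0, zb, zb'⟩ := ZB_le (z := z) hq.bc h (K0 q).le
  have hC := hL.CB.1 q
  exact ⟨mul_nonneg hC.le z0, (mul_le_mul_of_nonneg_left zb hC.le).trans hq.x,
    (mul_le_mul_of_nonneg_left zb' hC.le).trans hq.x⟩

/-- Region I pays. -/
theorem pay_BI (hL : L.Ok) (K0 : ∀ q, 0 < K q) (hq : QB n L K q) (h : PkOk q d)
    (hz : GB d q z) (hj : d.ch q .zI z ≠ 0) (a b : VV n → ℝ) :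
    34 * den d q (cB (nu L.kz q d) (L.CB q) (d.ZB q (K q)) (d.ZB' q (K q))) a b z ≤
      den d q (Mz L q d .zI) a b z := by
  obtain ⟨s0, s1, s2⟩ := s_B (z := z) hL K0 hq h
  have nn := n0_B hq h z
  have nk := hq.nk d h .zI (Or.inl rfl) z hj
  have cI := hL.cI.1 q
  have m0 := hq.bc.m0 h z
  obtain ⟨N1, N2, -, -⟩ := hq.bc.num h hz
  have hE : 0 < d.E q z := Real.exp_pos _
  have hK : d.Kf q z ≤ 41 / 20 * d.N q z := K_le h hq.zn.toNm (hq.bc.up h hz)
  have hm : d.m q z ≤ 5 * d.N q z := by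
    have h1 := nk.ti rfl
    have h2 : q.cK * d.Kf q z ≤ 1 * (41 / 20 * d.N q z) :=
      mul_le_mul hq.cK hK (K_pos h _).le zero_le_one
    linarith
  have p1 : pB n L q ≤ L.cI q / 34 / 98 := (min_le_right _ _).trans (min_le_left _ _)
  have wI : 0 ≤ (nu L.kz q d).wI z := by
    show 0 ≤ d.N q z ^ 2 * d.E q z ^ 2 / (d.E q z * (1 + d.m q z) + d.N q z ^ 2)
    positivity
  have wBI : (nu L.kz q d).wB z ≤ 98 * (nu L.kz q d).wI z := wB_wI N1 N2 m0 hm
  have k := (mb_MI0 (σ := d.sx) (τ := d.sy) (v₁ := fun _ => 0) (v₂ := fun _ => 0) (W := d.W q)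
    nn cI.le).pay0 (cc_B0 (C := L.CB q) (Z := d.ZB q (K q)) (Zq := d.ZB' q (K q))
    (e := L.cI q / 34) (G := (nu L.kz q d).wI) nn (by linarith) (by linarith) (by
      calc L.CB q * d.ZB q (K q) z * (nu L.kz q d).wB z ≤
          L.CB q * d.ZB q (K q) z * (98 * (nu L.kz q d).wI z) :=
            mul_le_mul_of_nonneg_left wBI s0
        _ ≤ L.cI q / 34 / 98 * (98 * (nu L.kz q d).wI z) :=
            mul_le_mul_of_nonneg_right (s1.trans p1) (by positivity)
        _ = L.cI q / 34 * (nu L.kz q d).wI z := by ring)) nn wI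
    (by norm_num : (0 : ℝ) ≤ 34) (by linarith) a b
  have t := TL_nn (σ := d.sx) (τ := d.sy) (v₁ := fun _ => 0) (v₂ := fun _ => 0) (W := d.W q)
    (N := H338.TC.Na d) (ρx := H338.TC.rx q d) (ρy := H338.TC.ry q d) (z := z)
    (hL.cN.1 q).le (show 0 ≤ H338.TC.Na d z from (h.N_pos hq.bc.nr.M1 _).le) a b
  have e1 : den d q (Mz L q d .zI) a b z =
      (MI (nu L.kz q d) (L.cI q)).dens d.sx d.sy (fun _ => 0) (fun _ => 0) (d.W q) a b z +
      (H338.C.TL (L.cN q) (H338.TC.Na d) (H338.TC.rx q d) (H338.TC.ry q d)).dens d.sx d.sy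
        (fun _ => 0) (fun _ => 0) (d.W q) a b z := Vale.Agent.P088.R2.H551.E.Q8.dens_add ..
  rw [e1]
  refine le_trans k ?_
  linarith

/-- The core pays. -/
theorem pay_BB (hL : L.Ok) (K0 : ∀ q, 0 < K q) (hq : QB n L K q) (h : PkOk q d)
    (a b : VV n → ℝ) :
    34 * den d q (cB (nu L.kz q d) (L.CB q) (d.ZB q (K q)) (d.ZB' q (K q))) a b z ≤
      den d q (Mz L q d .zB) a b z := by
  obtain ⟨s0, s1, s2⟩ := s_B (z := z) hL K0 hq h
  have nn := n0_B hq h z
  have c0 := hL.cB.1 q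
  have m0 := hq.bc.m0 h z
  have hE : 0 < d.E q z := Real.exp_pos _
  have hN : 0 < d.N q z := h.N_pos hq.bc.nr.M1 _
  have p1 : pB n L q ≤ L.cB q / 34 := min_le_left _ _
  have wB : 0 ≤ (nu L.kz q d).wB z := by
    show 0 ≤ d.E q z * (d.N q z + 1 + d.m q z) ^ 2 / (1 + d.m q z)
    positivity
  exact (mb_MB (σ := d.sx) (τ := d.sy) (v₁ := fun _ => 0) (v₂ := fun _ => 0) (W := d.W q)
    (ν := nu L.kz q d) (c := L.cB q)).pay0 (cc_B0 (C := L.CB q) (Z := d.ZB q (K q))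
    (Zq := d.ZB' q (K q)) (e := L.cB q / 34) (G := (nu L.kz q d).wB) nn (by linarith)
    (by linarith) (mul_le_mul_of_nonneg_right (s1.trans p1) wB)) nn wB
    (by norm_num : (0 : ℝ) ≤ 34) (by linarith) a b

/-- Zone II pays. -/
theorem pay_B2 (hL : L.Ok) (K0 : ∀ q, 0 < K q) (hq : QB n L K q) (h : PkOk q d)
    (hj : Z2 q d z) (a b : VV n → ℝ) :
    34 * den d q (cB (nu L.kz q d) (L.CB q) (d.ZB q (K q)) (d.ZB' q (K q))) a b z ≤
      den d q (MII (nu L.kz q d)) a b z := by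
  obtain ⟨s0, s1, s2⟩ := s_B (z := z) hL K0 hq h
  have nn := n0_B hq h z
  have A := al h hq.zn hj
  have hm1 := A.mX
  have hE : 0 < d.E q z := Real.exp_pos _
  have hN : 0 < d.N q z := h.N_pos hq.bc.nr.M1 _
  have hk := hq.k1 d h z hj
  obtain ⟨f1, f2⟩ := hq.f d h z hj
  have hn0 : (0 : ℝ) ≤ n := Nat.cast_nonneg n
  have hA : (0 : ℝ) < 1024 * ((n : ℝ) + 1) ^ 2 := by positivity
  have hAn : 1024 * (n : ℝ) ^ 2 ≤ 1024 * ((n : ℝ) + 1) ^ 2 := by nlinarith
  have hk0 : 1 ≤ L.kz q d z := by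
    have : 0 ≤ d.N q z ^ 2 / d.m q z ^ 2 := by positivity
    linarith
  have NN' : NN (nu L.kz q d) z := ⟨nn.En, nn.m, A.r0, rfl, by
    show 0 ≤ L.kz q d z
    linarith, nn.F₁, nn.F₂⟩
  set f : VV n → ℝ := fun z => d.E q z * d.m q z / (1024 * ((n : ℝ) + 1) ^ 2) with hf
  have m0 : 0 < d.m q z := by linarith
  have fz : 0 ≤ f z := by rw [hf]; positivity
  have F1 : f z ≤ (nu L.kz q d).F₁ z := by
    show d.E q z * d.m q z / (1024 * ((n : ℝ) + 1) ^ 2) ≤ d.sx.F (d.W q) z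
    rw [div_le_iff₀ hA]
    have : 0 ≤ d.sx.F (d.W q) z := nn.F₁
    nlinarith
  have F2 : f z ≤ (nu L.kz q d).F₂ z := by
    show d.E q z * d.m q z / (1024 * ((n : ℝ) + 1) ^ 2) ≤ d.sy.F (d.W q) z
    rw [div_le_iff₀ hA]
    have : 0 ≤ d.sy.F (d.W q) z := nn.F₂
    nlinarith
  have hwB : (nu L.kz q d).wB z ≤ 8 * (1024 * ((n : ℝ) + 1) ^ 2) / 1 * (L.kz q d z * f z) :=
    wB_wk hN.le hE hm1 hA one_pos (by rw [one_mul]; exact hk) le_rfl
  have wB0 : 0 ≤ (nu L.kz q d).wB z := by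
    show 0 ≤ d.E q z * (d.N q z + 1 + d.m q z) ^ 2 / (1 + d.m q z)
    positivity
  have p1 : pB n L q ≤ 1 / 544 / (8 * (1024 * ((n : ℝ) + 1) ^ 2)) :=
    (min_le_right _ _).trans (min_le_right _ _)
  have p2 : 1 / 544 / (8 * (1024 * ((n : ℝ) + 1) ^ 2)) ≤ 1 / 544 := by
    refine div_le_self (by norm_num) ?_
    nlinarith
  have hG : 0 ≤ L.kz q d z * f z := mul_nonneg (by linarith) fz
  exact (mb_MII (σ := d.sx) (τ := d.sy) (v₁ := fun _ => 0) (v₂ := fun _ => 0) (W := d.W q)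
    (ν := nu L.kz q d) (f := f) NN' m0 hk0 fz F1 F2).pay0 (cc_B0 (C := L.CB q)
    (Z := d.ZB q (K q)) (Zq := d.ZB' q (K q)) (e := 1 / 544)
    (G := fun z => (nu L.kz q d).k z * f z) nn (by linarith) (by linarith) (by
      calc L.CB q * d.ZB q (K q) z * (nu L.kz q d).wB z ≤
          1 / 544 / (8 * (1024 * ((n : ℝ) + 1) ^ 2)) * (nu L.kz q d).wB z :=
            mul_le_mul_of_nonneg_right (s1.trans p1) wB0
        _ ≤ 1 / 544 / (8 * (1024 * ((n : ℝ) + 1) ^ 2)) *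
            (8 * (1024 * ((n : ℝ) + 1) ^ 2) / 1 * (L.kz q d z * f z)) :=
            mul_le_mul_of_nonneg_left hwB (by positivity)
        _ = 1 / 544 * (L.kz q d z * f z) := by field_simp)) nn hG
    (by norm_num : (0 : ℝ) ≤ 34) (by norm_num) a b

/-- **The payments of the core**, at one `q`. -/
theorem pay_B (hL : L.Ok) (K0 : ∀ q, 0 < K q) (hZ : L.ZB = fun q d => d.ZB q (K q))
    (hZ' : L.ZB' = fun q d => d.ZB' q (K q)) (e : Cst → ℝ) (hq : QB n L K q) (h : PkOk q d)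
    {j : Zo} (hj : d.ch q j z ≠ 0) (nn : Nn (Mz L q d j) z) (a b : VV n → ℝ) :
    34 * den d q (coz L e q d .zB) a b z ≤ den d q (Mz L q d j) a b z := by
  rw [coB_eq hZ hZ' e]
  by_cases hz : GB d q z
  · rcases hq.bc.only h hz hj with rfl | rfl | rfl | rfl
    · exact pay_BI hL K0 hq h hz hj a b
    · exact pay_B2 hL K0 hq h (Or.inl hj) a b
    · exact pay_BB hL K0 hq h a b
    · exact pay_B2 hL K0 hq h (Or.inr hj) a b
  · obtain ⟨h1, h2⟩ := ZB_off (K q) hz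
    have e1 : den d q (cB (nu L.kz q d) (L.CB q) (d.ZB q (K q)) (d.ZB' q (K q))) a b z = 0 := by
      have e2 : den d q (cB (nu L.kz q d) (L.CB q) (d.ZB q (K q)) (d.ZB' q (K q))) a b z =
          L.CB q * d.ZB q (K q) z * den d q (uB (nu L.kz q d)) a b z +
          L.CB q * d.ZB' q (K q) z *
            H551.E.sqd d.sx d.sy (fun _ => 0) (fun _ => 0) (d.W q) a b z := by
        show (cB (nu L.kz q d) (L.CB q) (d.ZB q (K q)) (d.ZB' q (K q))).dens d.sx d.sy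
          (fun _ => 0) (fun _ => 0) (d.W q) a b z = L.CB q * d.ZB q (K q) z *
          (uB (nu L.kz q d)).dens d.sx d.sy (fun _ => 0) (fun _ => 0) (d.W q) a b z + _
        unfold cB
        rw [H551.E.Q8.dens_add, H551.E.Q8.dens_sm]
        unfold H551.E.Q8.dens
        simp only [Pi.zero_apply]
        ring
      rw [e2, h1, h2]
      ring
    rw [e1, mul_zero]
    exact dens_nonneg nn

/-- **The payments of the core** for all zones. -/
theorem payE_zB (hn : 1 ≤ n) (hL : L.Ok) (hK : NB_ηc K) (K0 : ∀ q, 0 < K q)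
    (hZ : L.ZB = fun q d => d.ZB q (K q)) (hZ' : L.ZB' = fun q d => d.ZB' q (K q))
    (hk : RowK1 L) {κ₀ ζ₀ : Cst → ℝ} (hN : RowNn (Mz L) κ₀ ζ₀) (j : Zo) : PayE L .zB j := by
  refine ⟨fun _ => 1, ⟨fun _ => rfl, fun _ => one_pos⟩, fun e _ _ => ?_⟩
  refine ((evQB hn hL hK K0 hk).and hN).mono ?_
  rintro q ⟨hq, -, -, nn⟩ d h z hj a b
  exact pay_B hL K0 hZ hZ' e hq h hj (nn d h j z hj).1 a b

end Vale.Agent.P088.R2.H850.E
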