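import Vale.Agent.P088.R2.H850.E.F2b
import Vale.Agent.P088.R2.H850.E.PzB
import Vale.Agent.P088.R2.H238.Z.K2
import Vale.Agent.P088.R2.H972.EP.Pb

/-!
# P088, stage 3, EST': the rows on zone II for the literal `k`
-/

open Set Filter
open scoped ContDiff Topology

noncomputable section

namespace Vale.Agent.P088.R2.H850.E

open Vale.Agent.P088.LR Vale.Agent.P088.R2.H31.EP
open Vale.Agent.P088.HY (VV)
open Vale.Agent.P088.R2.H455.E Vale.Agent.P088.R2.H558.G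
open Vale.Agent.P088.R2.H942.Pk (kz)
open Vale.Agent.P088.R2.H867.EP (Zo)

variable {n : ℕ} {L : Lc n} {K : Cst → ℝ}

theorem n2_z2 {q : Cst} {d : Pk n} {z : VV n} {k : Zo} (hk : H972.EP.N2 k)
    (hz : d.ch q k z ≠ 0) : d.ch q .z2a z ≠ 0 ∨ d.ch q .z2b z ≠ 0 := by
  rcases hk with rfl | rfl
  · exact Or.inl hz
  · exact Or.inr hz

/-- **Row KE.** -/
theorem rowKE (hn : 1 ≤ n) : H972.EP.RowKE (kz (n := n)) := fun C hC =>
  (H238.Z.ke hn C hC).mono fun _ h d ok _ hk z hz => h d ok z (n2_z2 hk hz)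

/-- **Row FE.** -/
theorem rowFE (hn : 1 ≤ n) : H972.EP.RowFE n := by
  have hn0 : (0 : ℝ) < n := by exact_mod_cast hn
  refine ⟨fun _ => 1024 * (n : ℝ) ^ 2, fun _ => rfl, (f2A_ev hn).mono fun q h =>
    ⟨by positivity, fun d ok k hk z hz => ?_⟩⟩
  obtain ⟨h1, h2⟩ := h d ok z (n2_z2 hk hz)
  rw [div_le_iff₀ (by positivity), div_le_iff₀ (by positivity)]
  constructor <;> linarith

/-- **Row K1.** -/
theorem rowK1 (hn : 1 ≤ n) (hL : L.kz = kz) : RowK1 L := by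
  refine (H238.Z.ke hn (fun _ => 1) fun _ => rfl).mono fun q h d ok z hz => ?_
  rw [hL]
  have := (h d ok z hz).1
  linarith

/-- **The payments of the core** for the literal `k`. -/
theorem payE_zB' (hn : 1 ≤ n) (hL : L.Ok) (hkz : L.kz = kz) (hK : NB_ηc K) (K0 : ∀ q, 0 < K q)
    (hZ : L.ZB = fun q d => d.ZB q (K q)) (hZ' : L.ZB' = fun q d => d.ZB' q (K q))
    {κ₀ ζ₀ : Cst → ℝ} (hN : RowNn (Mz L) κ₀ ζ₀) (j : Zo) : PayE L .zB j :=
  payE_zB hn hL hK K0 hZ hZ' (rowK1 hn hkz) hN j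

/-- **The payments of `zI`, `z2a`, `z2b`** by the near zones for the literal `k`. -/
theorem pay_near' (hn : 1 ≤ n) (hL : L.Ok) (hkz : L.kz = kz) {k j : Zo}
    (hk : k = .zI ∨ H972.EP.N2 k) (hj : H972.EP.Nz j) : PayEW L k j :=
  H972.EP.pay_near hL (hkz ▸ rowKE hn) (rowFE hn) hk hj

/-- **Row WtB** for the literal `k`. -/
theorem rowWb_fin (hn : 1 ≤ n) (hL : L.Ok) (hC : CtE L) (hkz : L.kz = kz) {g : Zo → Cst → ℝ}
    (hg : ∀ k, NoM (g k)) (hG : ∀ k, H935.G.RowGL (Mz L) k (g k)) (hS : H747.A.RowSup n) :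
    RowWb n (wzF (Mz L)) :=
  rowWb_LG hn hL hC hg hG hS (H238.Z.rowK2 hn hkz) (rowF2 hn)

end Vale.Agent.P088.R2.H850.E
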