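import Vale.Agent.P088.R2.H850.E.RowWb
import Vale.Agent.P088.R2.H850.E.F2

/-!
# P088, stage 3, EST': row F of `RowWb`
-/

noncomputable section

namespace Vale.Agent.P088.R2.H850.E

open Vale.Agent.P088.R2.H31.EP
open Vale.Agent.P088.R2.H606.Z (cF cF_pos)

variable {n : ℕ}

/-- **Row F.** -/
theorem rowF2 (hn : 1 ≤ n) : RowF2 n := by
  refine ⟨fun _ => cF n, fun _ _ => rfl, (f2_ev hn).mono fun q m => ⟨cF_pos hn, fun d h z hz => ?_⟩⟩
  exact m d h z (Or.inr hz)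

end Vale.Agent.P088.R2.H850.E
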